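import Vale.Agent.P050.O.H612.S4
import Vale.Agent.P050.O.H602.Zk

set_option linter.all false

/-!
Dense targets, phase 5, V1 (helper612): the pinned functions are almost constant.
-/

open MeasureTheory Finset

namespace Vale.Agent.P050.Opt

open Vale.Agent.P050 Vale.Agent.P050.Dense

namespace H612

/-- a product of factors close to one -/
lemma prod_sub_one_le {ι : Type*} [DecidableEq ι] (u : ι → ℝ) {η : ℝ} (hη : 0 ≤ η)
    (h0 : ∀ i, 0 ≤ 1 + u i) (h1 : ∀ i, 1 + u i ≤ 1 + η) (S : Finset ι) :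
    |∏ i ∈ S, (1 + u i) - 1| ≤ (1 + η) ^ S.card * ∑ i ∈ S, |u i| := by
  induction S using Finset.induction_on with
  | empty => simp
  | insert a S ha ih =>
    rw [Finset.prod_insert ha, Finset.sum_insert ha, Finset.card_insert_of_notMem ha]
    have hp : ∏ i ∈ S, (1 + u i) ≤ (1 + η) ^ S.card := by
      calc ∏ i ∈ S, (1 + u i) ≤ ∏ _i ∈ S, (1 + η) :=
            Finset.prod_le_prod (fun i _ => h0 i) fun i _ => h1 i
        _ = (1 + η) ^ S.card := by simp
    have hp0 : 0 ≤ ∏ i ∈ S, (1 + u i) := Finset.prod_nonneg fun i _ => h0 i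
    have hs0 : 0 ≤ ∑ i ∈ S, |u i| := Finset.sum_nonneg fun i _ => abs_nonneg _
    have hq0 : 0 ≤ (1 + η) ^ S.card := by positivity
    have e : (1 + u a) * ∏ i ∈ S, (1 + u i) - 1 =
        u a * ∏ i ∈ S, (1 + u i) + (∏ i ∈ S, (1 + u i) - 1) := by ring
    rw [e]
    calc |u a * ∏ i ∈ S, (1 + u i) + (∏ i ∈ S, (1 + u i) - 1)|
        ≤ |u a * ∏ i ∈ S, (1 + u i)| + |∏ i ∈ S, (1 + u i) - 1| := abs_add_le _ _
      _ ≤ |u a| * (1 + η) ^ S.card + (1 + η) ^ S.card * ∑ i ∈ S, |u i| := by
          refine add_le_add ?_ ih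
          rw [abs_mul, abs_of_nonneg hp0]
          exact mul_le_mul_of_nonneg_left hp (abs_nonneg _)
      _ = (1 + η) ^ S.card * (|u a| + ∑ i ∈ S, |u i|) := by ring
      _ ≤ (1 + η) ^ (S.card + 1) * (|u a| + ∑ i ∈ S, |u i|) := by
          refine mul_le_mul_of_nonneg_right ?_ (add_nonneg (abs_nonneg _) hs0)
          exact pow_le_pow_right₀ (by linarith) (Nat.le_succ _)

section

variable {V : Type*} [Fintype V] [DecidableEq V] {Ω : Type*} [MeasurableSpace Ω]
variable (H : SimpleGraph V) [DecidableRel H.Adj]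
variable (μ : Measure Ω) [IsProbabilityMeasure μ] {U : Sym2 Ω → ℝ} {R : V → Ω → ℝ} {κ η : ℝ}

lemma bm_pin (hU : Ker μ U κ η) (s : Ω) (w : V) : BM (fun z : V → Ω => U s(s, z w)) :=
  hU.good.bm_two.comp (g := fun z : V → Ω => (s, z w))
    (measurable_const.prodMk (measurable_pi_apply w))

/-- the integral of `|U (s, z_w)|` against the environment -/
lemma int_pin_le {D : ℕ} (hD : ∀ v, H.degree v ≤ D) (hU : Ker μ U κ η) (hη : (1 + η) ^ D ≤ 2)
    (hR : One μ R) {Λ : Finset V} {w : V} (hw : w ∈ Λ) (s : Ω) :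
    ∫ z, |U s(s, z w)| * Env H U R Λ z ∂(piM V μ) ≤ 3 * κ * ZE H μ U R (Λ.erase w) := by
  have hη0 := hU.η0
  have hbU := bm_pin μ hU s w
  have hE := H998.bm_Env H hU hR (Λ.erase w)
  have hE' := H998.bm_Env H hU hR Λ
  have hE0 := H998.Env_nonneg H hU hR (Λ.erase w)
  have hwn : w ∉ Λ.erase w := Finset.notMem_erase w Λ
  have hEi : Ind w (Env H U R (Λ.erase w)) := by
    intro x y
    refine H998.Env_congr H fun u hu => ?_
    rw [Function.update_of_ne]
    rintro rfl
    exact hwn hu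
  have hb3 : BM (fun z : V → Ω => 3 * |U s(s, z w)| * Env H U R (Λ.erase w) z) :=
    ((BM.const 3).mul hbU.abs).mul hE
  calc ∫ z, |U s(s, z w)| * Env H U R Λ z ∂(piM V μ)
      ≤ ∫ z, 3 * |U s(s, z w)| * Env H U R (Λ.erase w) z ∂(piM V μ) := by
        refine integral_mono ((hbU.abs.mul hE').integrable _) (hb3.integrable _) fun z => ?_
        show |U s(s, z w)| * Env H U R Λ z ≤ 3 * |U s(s, z w)| * Env H U R (Λ.erase w) z
        have e : Env H U R Λ z = (1 + R w (z w)) *
            (∏ u ∈ H.neighborFinset w ∩ (Λ.erase w), (1 + U s(z w, z u))) *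
              Env H U R (Λ.erase w) z := by
          have := H928.Env_insert H (U := U) (R := R) hwn z
          rw [Finset.insert_erase hw] at this
          exact this
        have hp : ∏ u ∈ H.neighborFinset w ∩ (Λ.erase w), (1 + U s(z w, z u)) ≤ 2 := by
          have hcard : (H.neighborFinset w ∩ (Λ.erase w)).card ≤ D :=
            le_trans (Finset.card_le_card Finset.inter_subset_left) (hD w)
          calc ∏ u ∈ H.neighborFinset w ∩ (Λ.erase w), (1 + U s(z w, z u))
              ≤ ∏ _u ∈ H.neighborFinset w ∩ (Λ.erase w), (1 + η) :=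
                Finset.prod_le_prod (fun _ _ => hU.one_add_nonneg _) fun _ _ => hU.one_add_le _
            _ = (1 + η) ^ (H.neighborFinset w ∩ (Λ.erase w)).card := by simp
            _ ≤ (1 + η) ^ D := pow_le_pow_right₀ (by linarith) hcard
            _ ≤ 2 := hη
        have hp0 : 0 ≤ ∏ u ∈ H.neighborFinset w ∩ (Λ.erase w), (1 + U s(z w, z u)) :=
          Finset.prod_nonneg fun _ _ => hU.one_add_nonneg _
        have hR1 := abs_le.mp (hR.bd w (z w))
        have hEz := hE0 z
        rw [e]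
        have h3 : (1 + R w (z w)) *
            (∏ u ∈ H.neighborFinset w ∩ (Λ.erase w), (1 + U s(z w, z u))) ≤ 3 / 2 * 2 :=
          mul_le_mul (by linarith [hR1.2]) hp hp0 (by norm_num)
        calc |U s(s, z w)| * ((1 + R w (z w)) *
            (∏ u ∈ H.neighborFinset w ∩ (Λ.erase w), (1 + U s(z w, z u))) *
              Env H U R (Λ.erase w) z)
            = (|U s(s, z w)| * Env H U R (Λ.erase w) z) * ((1 + R w (z w)) *
            (∏ u ∈ H.neighborFinset w ∩ (Λ.erase w), (1 + U s(z w, z u)))) := by ring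
          _ ≤ (|U s(s, z w)| * Env H U R (Λ.erase w) z) * (3 / 2 * 2) :=
              mul_le_mul_of_nonneg_left h3 (mul_nonneg (abs_nonneg _) hEz)
          _ = 3 * |U s(s, z w)| * Env H U R (Λ.erase w) z := by ring
    _ = ∫ z, 3 * (∫ y, |two U s y| ∂μ) * Env H U R (Λ.erase w) z ∂(piM V μ) := by
        rw [integral_update μ w hb3]
        refine integral_congr_ae (Filter.Eventually.of_forall fun z => ?_)
        show ∫ y, 3 * |U s(s, Function.update z w y w)| *
          Env H U R (Λ.erase w) (Function.update z w y) ∂μ = 3 * (∫ y, |two U s y| ∂μ) *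
          Env H U R (Λ.erase w) z
        rw [← integral_const_mul, ← integral_mul_const]
        congr 1
        ext y
        rw [hEi z y, Function.update_self]
        rfl
    _ = 3 * (∫ y, |two U s y| ∂μ) * ZE H μ U R (Λ.erase w) := by
        rw [integral_const_mul]
        rfl
    _ ≤ 3 * κ * ZE H μ U R (Λ.erase w) := by
        refine mul_le_mul_of_nonneg_right ?_ (ZE_nonneg H μ hU hR _)
        have := hU.l1 s
        linarith

/-- the pinned partition function is close to the one without the vertex -/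
theorem pin_sub {D : ℕ} (hD : ∀ v, H.degree v ≤ D) (hU : Ker μ U κ η) (hη : (1 + η) ^ D ≤ 2)
    (hR : One μ R) (hκ : 24 * D * κ ≤ 1) (v : V) (s : Ω) :
    |∫ z, (∏ w ∈ H.neighborFinset v, (1 + U s(s, z w))) * Env H U R (univ.erase v) z
        ∂(piM V μ) - ZE H μ U R (univ.erase v)| ≤
      7 * D * κ * ZE H μ U R (univ.erase v) := by
  have hη0 := hU.η0
  have hκ0 := hU.κ0
  have hE := H998.bm_Env H hU hR (univ.erase v)
  have hE0 := H998.Env_nonneg H hU hR (univ.erase v)
  have hbU : ∀ w, BM (fun z : V → Ω => U s(s, z w)) := fun w => bm_pin μ hU s w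
  have hbP : BM (fun z : V → Ω => ∏ w ∈ H.neighborFinset v, (1 + U s(s, z w))) :=
    BM.finprod _ fun w _ => (BM.const 1).add (hbU w)
  have hbS : ∀ w, BM (fun z : V → Ω => |U s(s, z w)| * Env H U R (univ.erase v) z) :=
    fun w => (hbU w).abs.mul hE
  have e1 : ∫ z, (∏ w ∈ H.neighborFinset v, (1 + U s(s, z w))) * Env H U R (univ.erase v) z
        ∂(piM V μ) - ZE H μ U R (univ.erase v) =
      ∫ z, (∏ w ∈ H.neighborFinset v, (1 + U s(s, z w)) - 1) * Env H U R (univ.erase v) z
        ∂(piM V μ) := by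
    unfold ZE
    rw [← integral_sub ((hbP.mul hE).integrable _) (hE.integrable _)]
    congr 1
    ext z
    ring
  have hone : ∀ w ∈ H.neighborFinset v,
      ∫ z, |U s(s, z w)| * Env H U R (univ.erase v) z ∂(piM V μ) ≤
        24 / 7 * κ * ZE H μ U R (univ.erase v) := by
    intro w hw
    have hwv : w ≠ v := by
      rintro rfl
      rw [SimpleGraph.mem_neighborFinset] at hw
      exact H.loopless.irrefl _ hw
    have hwΛ : w ∈ univ.erase v := Finset.mem_erase.mpr ⟨hwv, mem_univ _⟩
    have h1 := int_pin_le H μ hD hU hη hR hwΛ s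
    have h2 := ZE_ratio H μ hD hU hη hR hκ (Finset.notMem_erase w (univ.erase v))
    rw [Finset.insert_erase hwΛ] at h2
    have h3 := (abs_le.mp h2).1
    have h4 : ZE H μ U R ((univ.erase v).erase w) ≤ 8 / 7 * ZE H μ U R (univ.erase v) := by
      linarith
    calc ∫ z, |U s(s, z w)| * Env H U R (univ.erase v) z ∂(piM V μ)
        ≤ 3 * κ * ZE H μ U R ((univ.erase v).erase w) := h1
      _ ≤ 3 * κ * (8 / 7 * ZE H μ U R (univ.erase v)) :=
          mul_le_mul_of_nonneg_left h4 (by positivity)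
      _ = 24 / 7 * κ * ZE H μ U R (univ.erase v) := by ring
  rw [e1]
  calc |∫ z, (∏ w ∈ H.neighborFinset v, (1 + U s(s, z w)) - 1) * Env H U R (univ.erase v) z
        ∂(piM V μ)|
      ≤ ∫ z, |(∏ w ∈ H.neighborFinset v, (1 + U s(s, z w)) - 1) *
          Env H U R (univ.erase v) z| ∂(piM V μ) := abs_integral_le_integral_abs
    _ ≤ ∫ z, 2 * ∑ w ∈ H.neighborFinset v, |U s(s, z w)| * Env H U R (univ.erase v) z
          ∂(piM V μ) := by
        refine integral_mono (((hbP.sub (BM.const 1)).mul hE).abs.integrable _)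
          (((BM.const 2).mul (BM.finsum _ fun w _ => hbS w)).integrable _) fun z => ?_
        show |(∏ w ∈ H.neighborFinset v, (1 + U s(s, z w)) - 1) *
          Env H U R (univ.erase v) z| ≤
            2 * ∑ w ∈ H.neighborFinset v, |U s(s, z w)| * Env H U R (univ.erase v) z
        rw [abs_mul, abs_of_nonneg (hE0 z), ← Finset.sum_mul, ← mul_assoc]
        refine mul_le_mul_of_nonneg_right ?_ (hE0 z)
        refine (prod_sub_one_le (fun w => U s(s, z w)) hη0 (fun w => hU.one_add_nonneg _)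
          (fun w => hU.one_add_le _) (H.neighborFinset v)).trans ?_
        refine mul_le_mul_of_nonneg_right ?_ (Finset.sum_nonneg fun _ _ => abs_nonneg _)
        refine le_trans (pow_le_pow_right₀ (by linarith) ?_) hη
        exact hD v
    _ = 2 * ∑ w ∈ H.neighborFinset v, ∫ z, |U s(s, z w)| * Env H U R (univ.erase v) z
          ∂(piM V μ) := by
        rw [integral_const_mul, integral_finset_sum _ fun w _ => (hbS w).integrable _]
    _ ≤ 2 * ∑ _w ∈ H.neighborFinset v, 24 / 7 * κ * ZE H μ U R (univ.erase v) :=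
        mul_le_mul_of_nonneg_left (Finset.sum_le_sum hone) (by norm_num)
    _ = (H.degree v : ℝ) * (48 / 7 * κ * ZE H μ U R (univ.erase v)) := by
        rw [Finset.sum_const, nsmul_eq_mul, SimpleGraph.card_neighborFinset_eq_degree]
        ring
    _ ≤ (D : ℝ) * (48 / 7 * κ * ZE H μ U R (univ.erase v)) := by
        refine mul_le_mul_of_nonneg_right (by exact_mod_cast hD v) ?_
        exact mul_nonneg (mul_nonneg (by norm_num) hκ0) (ZE_nonneg H μ hU hR _)
    _ = 48 / 7 * (D * κ * ZE H μ U R (univ.erase v)) := by ring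
    _ ≤ 7 * (D * κ * ZE H μ U R (univ.erase v)) := by
        refine mul_le_mul_of_nonneg_right (by norm_num) ?_
        exact mul_nonneg (mul_nonneg (Nat.cast_nonneg _) hκ0) (ZE_nonneg H μ hU hR _)
    _ = 7 * D * κ * ZE H μ U R (univ.erase v) := by ring

theorem k_bd {k : V → Ω → ℝ} (hb : ∀ v, BM (k v)) (hk : Box k) (v : V) :
    1 ≤ ∫ s, k v s ∂μ ∧ ∫ s, k v s ∂μ ≤ 3 / 2 := by
  constructor
  · have := integral_mono (μ := μ) (integrable_const (1:ℝ)) ((hb v).integrable μ)
      (fun s => (hk v s).1)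
    simpa using this
  · have := integral_mono (μ := μ) ((hb v).integrable μ) (integrable_const (3 / 2 : ℝ))
      (fun s => (hk v s).2)
    simpa using this

theorem k_one {k : V → Ω → ℝ} (hb : ∀ v, BM (k v)) (hk : Box k) :
    One μ (fun v s => k v s / (∫ s, k v s ∂μ) - 1) := by
  have hA := k_bd μ hb hk
  refine ⟨fun v => ?_, fun v => ?_, fun v s => ?_⟩
  · have h1 := ((BM.const (X := Ω) (∫ s, k v s ∂μ)⁻¹).mul (hb v)).sub (BM.const 1)
    have h2 : (fun s => k v s / (∫ s, k v s ∂μ) - 1) =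
        fun s => (∫ s, k v s ∂μ)⁻¹ * k v s - 1 := by
      ext s; rw [div_eq_inv_mul]
    rw [h2]; exact h1
  · have h0 : (∫ s, k v s ∂μ) ≠ 0 := by have := (hA v).1; positivity
    rw [integral_sub (((hb v).integrable μ).div_const _) (integrable_const _),
      integral_div, div_self h0]
    simp
  · have h1 := hA v
    have h2 := hk v s
    have h0 : 0 < (∫ s, k v s ∂μ) := by linarith
    rw [abs_le]
    constructor
    · have : 1 / 2 ≤ k v s / (∫ s, k v s ∂μ) := by
        rw [le_div_iff₀ h0]; linarith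
      linarith
    · have : k v s / (∫ s, k v s ∂μ) ≤ 3 / 2 := by
        rw [div_le_iff₀ h0]; linarith
      linarith

/-- the pinned function in terms of the environment -/
theorem Pk_eq {k : V → Ω → ℝ} (hb : ∀ v, BM (k v)) (hk : Box k) (v : V) (s : Ω) :
    Pk H μ U k v s = (∏ w ∈ univ.erase v, ∫ s, k w s ∂μ) *
      ∫ z, (∏ w ∈ H.neighborFinset v, (1 + U s(s, z w))) *
        Env H U (fun v s => k v s / (∫ s, k v s ∂μ) - 1) (univ.erase v) z ∂(piM V μ) := by
  have hA := k_bd μ hb hk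
  unfold Pk
  rw [← integral_const_mul]
  refine integral_congr_ae (Filter.Eventually.of_forall fun z => ?_)
  show (∏ w ∈ univ.erase v, k w (z w)) *
    ∏ e ∈ H.edgeFinset, (1 + U (e.map (Function.update z v s))) =
    (∏ w ∈ univ.erase v, ∫ s, k w s ∂μ) * ((∏ w ∈ H.neighborFinset v, (1 + U s(s, z w))) *
      Env H U (fun v s => k v s / (∫ s, k v s ∂μ) - 1) (univ.erase v) z)
  have hnv : v ∉ univ.erase v := Finset.notMem_erase v univ
  have h1 : ∏ e ∈ H.edgeFinset, (1 + U (e.map (Function.update z v s))) =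
      (∏ w ∈ H.neighborFinset v, (1 + U s(s, z w))) *
        Env H U (fun _ _ => (0:ℝ)) (univ.erase v) z := by
    have h2 := H928.Env_insert H (U := U) (R := fun _ _ => (0:ℝ)) hnv (Function.update z v s)
    rw [Finset.insert_erase (mem_univ v)] at h2
    have h3 : Env H U (fun _ _ => (0:ℝ)) (univ.erase v) (Function.update z v s) =
        Env H U (fun _ _ => (0:ℝ)) (univ.erase v) z := by
      refine H998.Env_congr H fun u hu => ?_
      rw [Function.update_of_ne (Finset.ne_of_mem_erase hu)]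
    have h4 : Env H U (fun _ _ => (0:ℝ)) univ (Function.update z v s) =
        ∏ e ∈ H.edgeFinset, (1 + U (e.map (Function.update z v s))) := by
      unfold Env
      have h5 : H.edgeFinset.filter (fun e => ∀ v ∈ e, v ∈ (univ : Finset V)) = H.edgeFinset :=
        Finset.filter_true_of_mem fun e _ v _ => mem_univ v
      rw [h5]
      simp
    have h6 : H.neighborFinset v ∩ univ.erase v = H.neighborFinset v := by
      rw [Finset.inter_eq_left]
      intro w hw
      refine Finset.mem_erase.mpr ⟨?_, mem_univ _⟩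
      rintro rfl
      rw [SimpleGraph.mem_neighborFinset] at hw
      exact H.loopless.irrefl _ hw
    rw [h4, h3, h6, Function.update_self, add_zero, one_mul] at h2
    rw [h2]
    congr 1
    refine Finset.prod_congr rfl fun w hw => ?_
    rw [Function.update_of_ne]
    rintro rfl
    rw [SimpleGraph.mem_neighborFinset] at hw
    exact H.loopless.irrefl _ hw
  have h7 : (∏ w ∈ univ.erase v, k w (z w)) * Env H U (fun _ _ => (0:ℝ)) (univ.erase v) z =
      (∏ w ∈ univ.erase v, ∫ s, k w s ∂μ) *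
        Env H U (fun v s => k v s / (∫ s, k v s ∂μ) - 1) (univ.erase v) z := by
    unfold Env
    rw [← mul_assoc, ← mul_assoc, ← Finset.prod_mul_distrib, ← Finset.prod_mul_distrib]
    congr 1
    refine Finset.prod_congr rfl fun w _ => ?_
    have h0 : (∫ s, k w s ∂μ) ≠ 0 := by have := (hA w).1; positivity
    field_simp
    ring
  rw [h1]
  calc (∏ w ∈ univ.erase v, k w (z w)) * ((∏ w ∈ H.neighborFinset v, (1 + U s(s, z w))) *
        Env H U (fun _ _ => (0:ℝ)) (univ.erase v) z)
      = (∏ w ∈ H.neighborFinset v, (1 + U s(s, z w))) * ((∏ w ∈ univ.erase v, k w (z w)) *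
        Env H U (fun _ _ => (0:ℝ)) (univ.erase v) z) := by ring
    _ = _ := by rw [h7]; ring

theorem pin_ratio_of {D : ℕ} (hD : ∀ v, H.degree v ≤ D) (hU : Ker μ U κ η)
    (hη : (1 + η) ^ D ≤ 2) (hκ : 10 ^ 12 * D * κ ≤ 1) {k : V → Ω → ℝ} (hb : ∀ v, BM (k v))
    (hk : Box k) (v : V) (s t : Ω) :
    0 < Pk H μ U k v s ∧ Pk H μ U k v s ≤ 5 / 4 * Pk H μ U k v t := by
  have hκ0 := hU.κ0
  have hDκ : (0 : ℝ) ≤ D * κ := by positivity
  have h24 : 24 * D * κ ≤ 1 := by nlinarith
  have hO := k_one μ hb hk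
  have hA := k_bd μ hb hk
  have hpos := ZE_pos H μ hD hU hη hO h24 (univ.erase v)
  have hP : 0 < ∏ w ∈ univ.erase v, ∫ s, k w s ∂μ :=
    Finset.prod_pos fun w _ => by linarith [(hA w).1]
  have h16 : ∀ s : Ω, |∫ z, (∏ w ∈ H.neighborFinset v, (1 + U s(s, z w))) *
        Env H U (fun v s => k v s / (∫ s, k v s ∂μ) - 1) (univ.erase v) z ∂(piM V μ) -
          ZE H μ U (fun v s => k v s / (∫ s, k v s ∂μ) - 1) (univ.erase v)| ≤
      1 / 16 * ZE H μ U (fun v s => k v s / (∫ s, k v s ∂μ) - 1) (univ.erase v) := by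
    intro s
    refine (pin_sub H μ hD hU hη hO h24 v s).trans ?_
    refine mul_le_mul_of_nonneg_right ?_ hpos.le
    nlinarith
  have hs := abs_le.mp (h16 s)
  have ht := abs_le.mp (h16 t)
  rw [Pk_eq H μ hb hk v s, Pk_eq H μ hb hk v t]
  refine ⟨mul_pos hP (by linarith [hs.1]), ?_⟩
  calc (∏ w ∈ univ.erase v, ∫ s, k w s ∂μ) * ∫ z, (∏ w ∈ H.neighborFinset v, (1 + U s(s, z w))) *
        Env H U (fun v s => k v s / (∫ s, k v s ∂μ) - 1) (univ.erase v) z ∂(piM V μ)
      ≤ (∏ w ∈ univ.erase v, ∫ s, k w s ∂μ) * (5 / 4 *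
        ∫ z, (∏ w ∈ H.neighborFinset v, (1 + U s(t, z w))) *
        Env H U (fun v s => k v s / (∫ s, k v s ∂μ) - 1) (univ.erase v) z ∂(piM V μ)) := by
        refine mul_le_mul_of_nonneg_left ?_ hP.le
        linarith [hs.2, ht.1]
    _ = _ := by ring

end

end H612

section

variable {V : Type*} [Fintype V] [DecidableEq V] {Ω : Type*} [MeasurableSpace Ω]
  [Fintype Ω] [MeasurableSingletonClass Ω]
variable (H : SimpleGraph V) [DecidableRel H.Adj]
variable (μ : Measure Ω) [IsProbabilityMeasure μ] {U : Sym2 Ω → ℝ} {κ η : ℝ}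

/-- V1 -/
theorem pin_ratio {D : ℕ} (hD : ∀ v, H.degree v ≤ D) (hU : Ker μ U κ η) (hη : (1 + η) ^ D ≤ 2)
    (hκ : 10 ^ 12 * D * κ ≤ 1) {k : V → Ω → ℝ} (hk : Box k) (v : V) (s t : Ω) :
    0 < Pk H μ U k v s ∧ Pk H μ U k v s ≤ 5 / 4 * Pk H μ U k v t :=
  H612.pin_ratio_of H μ hD hU hη hκ (fun v => H602.bm_fin (k v)) hk v s t

end

end Vale.Agent.P050.Opt
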