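import Vale.Agent.P050.O.H300.AsmDefs
import Vale.Agent.P050.O.H261.EntLog
import Vale.Agent.P050.O.H694.Forest
import Vale.Agent.P050.R2.H111.Red
import Vale.Agent.P050.O.H625.Asm
import Vale.Agent.P050.R3.H904.ToGraph

set_option linter.all false

/-!
Graphs assembled from Sidorenko graphs: the laws of `Ent` give Sidorenko's inequality for all
targets.
-/

open Finset MeasureTheory

noncomputable section

namespace Vale.Agent.P050.R2.H111.Red3

open Vale.Agent.P050 Vale.Agent.P050.Dense Vale.Agent.P050.R2.H111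

variable {V X : Type} [Fintype V] [DecidableEq V] [Fintype X] [Nonempty X]

/-- the density of a kernel with positive degrees in terms of a kernel of constant degree -/
theorem redAll (W : X → X → ℝ) (hs : ∀ x y, W x y = W y x)
    (hd : ∀ x, 0 < dgr W x) (H : SimpleGraph V) [DecidableRel H.Adj] :
    tden H W hs = pden W ^ H.edgeFinset.card *
      ∑ z : V → X, (∏ v, pi0 W (z v)) * ((∏ v, rr W (z v) ^ (H.degree v - 1)) *
        ∏ e ∈ H.edgeFinset, (1 + UU W hs (e.map z))) := by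
  letI : MeasurableSpace X := ⊤
  haveI : MeasurableSingletonClass X := ⟨fun _ => trivial⟩
  have hn := card_pos' (X := X)
  have hT : 0 < tot W := tot_pos hd
  obtain ⟨μ, hμ, hw⟩ := exists_measure (pi0 W) (pi0_pos hd) (sum_pi0 hd)
  have hpi : ∀ F : (V → X) → ℝ, ∫ z, F z ∂(piM V μ) = ∑ z : V → X, (∏ v, pi0 W (z v)) * F z :=
    integral_piM hw
  have hone : ∀ F : X → ℝ, ∫ z, F z ∂μ = ∑ z, pi0 W z * F z := integral_one hw
  have hrpos : ∀ x, 0 < rr W x := rr_pos hd
  have hpir : ∀ x, pi0 W x = rr W x / Fintype.card X := by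
    intro x; unfold rr; field_simp
  have hr1 : ∫ s, (rr W s)⁻¹ ∂μ = 1 := by
    rw [hone]
    have h2 : ∀ z, pi0 W z * (rr W z)⁻¹ = (Fintype.card X : ℝ)⁻¹ := by
      intro z
      rw [hpir]
      have := (hrpos z).ne'
      field_simp
    simp_rw [h2]
    rw [sum_const, card_univ, nsmul_eq_mul, mul_inv_cancel₀ hn.ne']
  have hpden : pden W = tot W / (Fintype.card X : ℝ) ^ 2 := rfl
  rw [← hpi, ← iso_out H (UU W hs) (rr W) hrpos hr1, hpi]
  unfold tden
  have h2 : ∀ z : V → X, ∏ e ∈ H.edgeFinset, ev W hs z e =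
      (pden W ^ H.edgeFinset.card * (Fintype.card X : ℝ) ^ Fintype.card V) *
        ((∏ v, pi0 W (z v)) * ((∏ v, rr W (z v) ^ H.degree v / rr W (z v)) *
          ∏ e ∈ H.edgeFinset, (1 + UU W hs (e.map z)))) := by
    intro z
    rw [prod_ev_eq H hs hd z, hpden]
    congr 3
    exact prod_congr rfl fun e _ => ev_eq_UU W hs z e
  simp_rw [h2]
  rw [← mul_sum]
  have h3 : (Fintype.card X : ℝ) ^ Fintype.card V ≠ 0 := (pow_pos hn _).ne'
  field_simp

theorem wt_UU (W : X → X → ℝ) (hs : ∀ x y, W x y = W y x) (h0 : ∀ x y, 0 ≤ W x y)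
    (hd : ∀ x, 0 < dgr W x) : Opt.Wt (pi0 W) (UU W hs) := by
  refine ⟨pi0_pos hd, sum_pi0 hd, ?_, ?_⟩
  · intro e
    induction e with
    | h a b =>
      rw [UU_mk]
      have := KK_nonneg h0 hd a b
      linarith
  · intro s
    have : ∀ t, pi0 W t * UU W hs s(s, t) = pi0 W t * KK W s t - pi0 W t := by
      intro t; rw [UU_mk]; ring
    simp_rw [this]
    rw [sum_sub_distrib, sum_KK hd, sum_pi0 hd, sub_self]

theorem sum_rr_inv (W : X → X → ℝ) (hd : ∀ x, 0 < dgr W x) :
    ∑ s, pi0 W s * (rr W s)⁻¹ = 1 := by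
  have hn := card_pos' (X := X)
  have h2 : ∀ z, pi0 W z * (rr W z)⁻¹ = (Fintype.card X : ℝ)⁻¹ := by
    intro z
    have hz := (pi0_pos hd z).ne'
    unfold rr
    field_simp
  simp_rw [h2]
  rw [sum_const, card_univ, nsmul_eq_mul, mul_inv_cancel₀ hn.ne']

end Vale.Agent.P050.R2.H111.Red3

namespace Vale.Agent.P050.Opt

open Vale.Agent.P050 Vale.Agent.P050.Dense

namespace H612

/-- Jensen for the one-body function -/
lemma sum_log_nonneg {Ω : Type*} [Fintype Ω] {w r : Ω → ℝ} (hw : ∀ s, 0 ≤ w s)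
    (hw1 : ∑ s, w s = 1) (hr : ∀ s, 0 < r s) (h : ∑ s, w s * (r s)⁻¹ = 1) :
    0 ≤ ∑ s, w s * Real.log (r s) := by
  have h1 : ∑ s, (w s - w s * (r s)⁻¹) ≤ ∑ s, w s * Real.log (r s) := by
    refine sum_le_sum fun s _ => ?_
    have h2 := mul_le_mul_of_nonneg_left (Real.one_sub_inv_le_log_of_pos (hr s)) (hw s)
    linarith
  rw [sum_sub_distrib, hw1, h] at h1
  linarith

/-- the weighted sum for the powers of the one-body function -/
lemma one_le_of_ent {V : Type} [Fintype V] [DecidableEq V] {Ω : Type} [Fintype Ω]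
    [DecidableEq Ω] {H : SimpleGraph V} [DecidableRel H.Adj] {w : Ω → ℝ}
    {U : Sym2 Ω → ℝ} (hw : Wt w U) (hE : Ent H w U) {r : Ω → ℝ}
    (hr : ∀ s, 0 < r s) (h : ∑ s, w s * (r s)⁻¹ = 1) (a : V → ℕ) :
    1 ≤ ∑ z : V → Ω, (∏ v, w (z v)) *
      ((∏ v, r (z v) ^ a v) * ∏ e ∈ H.edgeFinset, (1 + U (e.map z))) := by
  have h0 := sum_log_nonneg (fun s => (hw.pos s).le) hw.sum hr h
  obtain ⟨h1, h2⟩ := ent_log hw hE (fun v s => r s ^ a v) (fun v s => pow_pos (hr s) _)
  have h3 : 0 ≤ ∑ v : V, ∑ s, w s * Real.log (r s ^ a v) := by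
    refine sum_nonneg fun v _ => ?_
    have h4 : ∑ s, w s * Real.log (r s ^ a v) = a v * ∑ s, w s * Real.log (r s) := by
      rw [mul_sum]
      refine sum_congr rfl fun s _ => ?_
      rw [Real.log_pow]
      ring
    rw [h4]
    positivity
  have h4 := (Real.log_nonneg_iff h1).1 (h3.trans h2)
  refine h4.trans (le_of_eq (sum_congr rfl fun z _ => ?_))
  rw [H694.mH_eq H w U z H.edgeFinset fun e => SimpleGraph.mem_edgeFinset]
  ring

/-- kernels with positive degrees -/
theorem tden_of_ent_pos {V X : Type} [Fintype V] [DecidableEq V] [Fintype X] [DecidableEq X]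
    [Nonempty X] (H : SimpleGraph V) [DecidableRel H.Adj]
    (hE : ∀ (w : X → ℝ) (U : Sym2 X → ℝ), Wt w U → Ent H w U)
    (W : X → X → ℝ) (hs : ∀ x y, W x y = W y x) (h0 : ∀ x y, 0 ≤ W x y)
    (hd : ∀ x, 0 < Vale.Agent.P050.R2.H111.dgr W x) :
    pden W ^ H.edgeFinset.card ≤ tden H W hs := by
  have hwt := Vale.Agent.P050.R2.H111.Red3.wt_UU W hs h0 hd
  have h2 := one_le_of_ent hwt (hE _ _ hwt) (Vale.Agent.P050.R2.H111.rr_pos hd)
    (Vale.Agent.P050.R2.H111.Red3.sum_rr_inv W hd) fun v => H.degree v - 1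
  have hp0 : 0 ≤ pden W := by
    unfold pden
    exact div_nonneg (Finset.sum_nonneg fun x _ => Finset.sum_nonneg fun y _ => h0 x y)
      (by positivity)
  rw [Vale.Agent.P050.R2.H111.Red3.redAll W hs hd H]
  calc pden W ^ H.edgeFinset.card = pden W ^ H.edgeFinset.card * 1 := (mul_one _).symm
    _ ≤ _ := mul_le_mul_of_nonneg_left h2 (pow_nonneg hp0 _)


/-- all kernels -/
theorem tden_of_ent {V X : Type} [Fintype V] [DecidableEq V] [Fintype X] [DecidableEq X]
    [Nonempty X] (H : SimpleGraph V) [DecidableRel H.Adj]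
    (hE : ∀ (w : X → ℝ) (U : Sym2 X → ℝ), Wt w U → Ent H w U)
    (W : X → X → ℝ) (hs : ∀ x y, W x y = W y x) (h0 : ∀ x y, 0 ≤ W x y) :
    pden W ^ H.edgeFinset.card ≤ tden H W hs := by
  have hsε : ∀ ε : ℝ, ∀ x y, W x y + ε = W y x + ε := fun ε x y => by rw [hs]
  have h1 : ∀ ε : ℝ, 0 < ε → pden (fun x y => W x y + ε) ^ H.edgeFinset.card ≤
      tden H (fun x y => W x y + ε) (hsε ε) := by
    intro ε hε
    refine tden_of_ent_pos H hE _ (hsε ε)
      (fun x y => add_nonneg (h0 x y) hε.le) fun x => ?_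
    show 0 < ∑ y, (W x y + ε)
    exact Finset.sum_pos (fun y _ => by have := h0 x y; linarith) univ_nonempty
  have hc1 : Continuous (fun ε : ℝ => pden (fun x y => W x y + ε) ^ H.edgeFinset.card) := by
    unfold pden
    fun_prop
  have hc2 : Continuous (fun ε : ℝ => tden H (fun x y => W x y + ε) (hsε ε)) := by
    unfold tden
    refine Continuous.div_const (continuous_finset_sum _ fun z _ =>
      continuous_finset_prod _ fun e _ => ?_) _
    induction e using Sym2.ind with
    | h a b =>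
      show Continuous (fun ε : ℝ => W (z a) (z b) + ε)
      fun_prop
  have ht1 : Filter.Tendsto (fun ε : ℝ => pden (fun x y => W x y + ε) ^ H.edgeFinset.card)
      (nhdsWithin 0 (Set.Ioi 0)) (nhds (pden W ^ H.edgeFinset.card)) := by
    have := (hc1.tendsto 0).mono_left (nhdsWithin_le_nhds (s := Set.Ioi (0:ℝ)))
    simpa using this
  have e2 : tden H (fun x y => W x y + 0) (hsε 0) = tden H W hs := by
    congr 1
    ext x y
    rw [add_zero]
  have ht2 : Filter.Tendsto (fun ε : ℝ => tden H (fun x y => W x y + ε) (hsε ε))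
      (nhdsWithin 0 (Set.Ioi 0)) (nhds (tden H W hs)) := by
    have := (hc2.tendsto 0).mono_left (nhdsWithin_le_nhds (s := Set.Ioi (0:ℝ)))
    rwa [e2] at this
  exact le_of_tendsto_of_tendsto ht1 ht2
    (Filter.eventually_of_mem self_mem_nhdsWithin fun ε hε => h1 ε hε)

/-- the laws of `Ent` for all finite spaces give Sidorenko's inequality for all graphs -/
theorem sid_of_ent {V : Type} [Fintype V] [DecidableEq V] {H : SimpleGraph V}
    (hb : H.IsBipartite)
    (hE : ∀ (X : Type) [Fintype X] [DecidableEq X] (w : X → ℝ) (U : Sym2 X → ℝ), Wt w U →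
      Ent H w U) : IsSidorenko H := by
  classical
  refine ⟨hb, ?_⟩
  intro X _ _ Γ
  letI := Fintype.ofFinite X
  rw [← tden_adjK, ← pden_adjK, Nat.card_eq_fintype_card, ← SimpleGraph.edgeFinset_card]
  refine tden_of_ent H (fun w U h => hE X w U h) (adjK Γ) (adjK_symm Γ) fun x y => ?_
  unfold adjK
  split_ifs <;> norm_num

end H612

end Vale.Agent.P050.Opt
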