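import Vale.Agent.P050.O.H300.AsmDefs
import Mathlib.Analysis.SpecialFunctions.Log.NegMulLog

set_option linter.all false

/-!
Dense targets, assembled graphs, F3 (helper612): compactness.
-/

open MeasureTheory Finset

namespace Vale.Agent.P050.Opt

open Vale.Agent.P050 Vale.Agent.P050.Dense

namespace H612

section

variable {V : Type} [Fintype V] [DecidableEq V] {Ω : Type} [Fintype Ω] [DecidableEq Ω]

lemma mul_log_div (x m : ℝ) (h : m = 0 → x = 0) :
    x * Real.log (x / m) = x * Real.log x - x * Real.log m := by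
  rcases eq_or_ne x 0 with rfl | hx
  · simp
  · have hm : m ≠ 0 := fun h' => hx (h h')
    rw [Real.log_div hx hm]
    ring

/-- F3: compactness -/
theorem ent_of_approx {H : SimpleGraph V} {w : Ω → ℝ} {U : Sym2 Ω → ℝ}
    (h : ∀ ε : ℝ, 0 < ε → ∃ g : (V → Ω) → ℝ, (∀ z, 0 ≤ g z) ∧ ∑ z, g z = 1 ∧
      (∀ v s, |∑ z ∈ univ.filter (fun z : V → Ω => z v = s), g z - w s| ≤ ε) ∧
      (∀ z, mH H w U z = 0 → g z = 0) ∧ ∑ z, g z * Real.log (g z / mH H w U z) ≤ ε) :
    Ent H w U := by
  have h' : ∀ n : ℕ, (0:ℝ) < 1 / ((n:ℝ) + 1) := fun n => by positivity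
  choose g h0 h1 h2 h3 h4 using fun n : ℕ => h (1 / ((n:ℝ) + 1)) (h' n)
  have hmem : ∀ n, g n ∈ Set.univ.pi (fun _ : V → Ω => Set.Icc (0:ℝ) 1) := by
    intro n z _
    refine ⟨h0 n z, ?_⟩
    rw [← h1 n]
    exact single_le_sum (fun z _ => h0 n z) (mem_univ z)
  obtain ⟨G, hG, φ, hφ, hlim⟩ :=
    (isCompact_univ_pi fun _ : V → Ω => isCompact_Icc (a := (0:ℝ)) (b := 1)).tendsto_subseq hmem
  have hε : Filter.Tendsto (fun n : ℕ => 1 / ((φ n : ℝ) + 1)) Filter.atTop (nhds 0) :=
    tendsto_one_div_add_atTop_nhds_zero_nat.comp hφ.tendsto_atTop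
  have hc : ∀ z, Filter.Tendsto (fun n => g (φ n) z) Filter.atTop (nhds (G z)) := by
    intro z
    exact (tendsto_pi_nhds.mp hlim) z
  have hz3 : ∀ z, mH H w U z = 0 → G z = 0 := by
    intro z hz
    refine tendsto_nhds_unique (hc z) ?_
    simp only [h3 _ z hz]
    exact tendsto_const_nhds
  refine ⟨G, fun z => (hG z trivial).1, ?_, ?_, hz3, ?_⟩
  · refine tendsto_nhds_unique (tendsto_finset_sum _ fun z _ => hc z) ?_
    simp only [h1]
    exact tendsto_const_nhds
  · intro v s
    have ht : Filter.Tendsto (fun n => |∑ z ∈ univ.filter (fun z : V → Ω => z v = s),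
        g (φ n) z - w s|) Filter.atTop
        (nhds |∑ z ∈ univ.filter (fun z : V → Ω => z v = s), G z - w s|) :=
      ((tendsto_finset_sum _ fun z _ => hc z).sub_const (w s)).abs
    have := le_of_tendsto_of_tendsto ht hε (Filter.Eventually.of_forall fun n => h2 (φ n) v s)
    have h5 := abs_nonpos_iff.mp this
    linarith
  · have e : ∀ f : (V → Ω) → ℝ, (∀ z, mH H w U z = 0 → f z = 0) →
        ∑ z, f z * Real.log (f z / mH H w U z) =
          ∑ z, (f z * Real.log (f z) - f z * Real.log (mH H w U z)) :=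
      fun f hf => sum_congr rfl fun z _ => mul_log_div _ _ (hf z)
    rw [e G hz3]
    have ht : Filter.Tendsto (fun n => ∑ z, (g (φ n) z * Real.log (g (φ n) z) -
        g (φ n) z * Real.log (mH H w U z))) Filter.atTop
        (nhds (∑ z, (G z * Real.log (G z) - G z * Real.log (mH H w U z)))) := by
      refine tendsto_finset_sum _ fun z _ => ?_
      refine Filter.Tendsto.sub ?_ ((hc z).mul_const _)
      exact (Continuous.tendsto Real.continuous_mul_log (G z)).comp (hc z)
    refine le_of_tendsto_of_tendsto ht hε (Filter.Eventually.of_forall fun n => ?_)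
    show ∑ z, (g (φ n) z * Real.log (g (φ n) z) - g (φ n) z * Real.log (mH H w U z)) ≤
      1 / ((φ n : ℝ) + 1)
    rw [← e (g (φ n)) (h3 (φ n))]
    exact h4 (φ n)

end

end H612

end Vale.Agent.P050.Opt
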