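import Vale.Agent.P050.O.H612.SidAsm
import Vale.Agent.P050.O.H694.EntSidOf
import Vale.Agent.P050.O.H602.SidTypFin
import Vale.Agent.P050.O.H128.TreeFin

set_option linter.all false

/-!
Graphs assembled from Sidorenko graphs are Sidorenko.
-/

open Finset MeasureTheory

namespace Vale.Agent.P050.Opt

open Vale.Agent.P050 Vale.Agent.P050.Dense

/-- graphs assembled from Sidorenko graphs are Sidorenko -/
theorem sid_asm0 {V : Type} {H : SimpleGraph V} (h : Assembled 0 V H) : IsSidorenko H :=
  H612.sid_asm0_of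
    (fun V _ _ H hH Ω _ _ w U hw =>
      H694.ent_sid_of_typical hw fun hδ => sid_typical hH hw hδ)
    (fun V₀ V _ _ _ _ H n f h1 h3 Ω _ _ w U hw hE => ent_tree H n f h1 h3 hw hE) h

end Vale.Agent.P050.Opt
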