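import Vale.Agent.P050.R2.H738.GL
import Vale.Agent.P050.O.H300.Defs

/-!
# P050, dense targets, optimal order: shapes with one cycle

One closed path `c, Z, c` hanging on a connected piece `X₀` at the vertex `c`: the two clean arcs
are taken inside the closed path.
-/

set_option linter.all false

open MeasureTheory Finset

namespace Vale.Agent.P050.Opt

open Vale.Agent.P050 Vale.Agent.P050.Dense

namespace H612

section graph

variable {V : Type*} [Fintype V] [DecidableEq V]

omit [Fintype V] [DecidableEq V] in
lemma hd_append (a : V) (E L : List V) : hd a (E ++ L) = hd (hd a L) E := by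
  cases E with
  | nil => rfl
  | cons w E => rfl

omit [Fintype V] [DecidableEq V] in
lemma hd_mem (a : V) (L : List V) : hd a L = a ∨ hd a L ∈ L := by
  cases L with
  | nil => exact Or.inl rfl
  | cons w L => exact Or.inr List.mem_cons_self

omit [Fintype V] [DecidableEq V] in
lemma pathEdges_append (a m b : V) (p q : List V) :
    pathEdges a (p ++ m :: q) b = pathEdges a p m ++ pathEdges m q b := by
  induction p generalizing a with
  | nil => simp [pathEdges]
  | cons v p ih => simp [pathEdges, ih]

omit [Fintype V] [DecidableEq V] in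
/-- every edge of a path contains a vertex different from the last one -/
lemma pathEdges_mem_init {a b : V} {p : List V} {e : Sym2 V} (he : e ∈ pathEdges a p b) :
    ∃ v ∈ a :: p, v ∈ e := by
  induction p generalizing a with
  | nil =>
    simp only [pathEdges, List.mem_singleton] at he
    subst he
    exact ⟨a, by simp, by simp⟩
  | cons v p ih =>
    simp only [pathEdges, List.mem_cons] at he
    rcases he with rfl | he
    · exact ⟨a, by simp, by simp⟩
    · obtain ⟨u, hu, hue⟩ := ih he
      exact ⟨u, List.mem_cons_of_mem _ hu, hue⟩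

omit [Fintype V] in
lemma reach_edge {F : Finset (Sym2 V)} {u v : V} (h : s(u, v) ∈ F) : (gr F).Reachable u v := by
  by_cases huv : u = v
  · subst huv; exact SimpleGraph.Reachable.refl _
  · exact SimpleGraph.Adj.reachable (by rw [SimpleGraph.fromEdgeSet_adj]; exact ⟨h, huv⟩)

omit [Fintype V] in
/-- all vertices of a path can be reached from its last vertex -/
lemma reach_path {F : Finset (Sym2 V)} {a b : V} {p : List V}
    (h : ∀ e ∈ pathEdges a p b, e ∈ F) : ∀ u ∈ a :: p ++ [b], (gr F).Reachable b u := by
  induction p generalizing a with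
  | nil =>
    intro u hu
    simp only [List.cons_append, List.nil_append, List.mem_cons, List.not_mem_nil, or_false] at hu
    rcases hu with rfl | rfl
    · have : s(b, u) ∈ F := by
        have := h s(u, b) (by simp [pathEdges])
        rwa [Sym2.eq_swap]
      exact reach_edge this
    · exact SimpleGraph.Reachable.refl _
  | cons v p ih =>
    intro u hu
    have ih' := ih (a := v) (fun e he => h e (by simp [pathEdges, he]))
    simp only [List.cons_append, List.mem_cons] at hu
    rcases hu with rfl | hu
    · have h1 := ih' v (by simp)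
      have h2 : s(v, u) ∈ F := by
        have := h s(u, v) (by simp [pathEdges])
        rwa [Sym2.eq_swap]
      exact h1.trans (reach_edge h2)
    · exact ih' u (by simpa using hu)

/-- the edges of the path `(a, L)` -/
def PE (a : V) : List V → Finset (Sym2 V)
  | [] => ∅
  | w :: L => insert s(hd a L, w) (PE a L)

omit [Fintype V] in
lemma PE_vs (a : V) (L : List V) : ∀ e ∈ PE a L, ∀ v ∈ e, v ∈ vs a L := by
  induction L with
  | nil => intro e he; simp [PE] at he
  | cons w L ih =>
    intro e he v hv
    rw [PE, Finset.mem_insert] at he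
    rcases he with rfl | he
    · rw [Sym2.mem_iff] at hv
      rcases hv with rfl | rfl
      · rcases hd_mem a L with h | h
        · rw [h]; simp [vs]
        · simp [vs, h]
      · simp [vs]
    · have := ih e he v hv
      simp only [vs, Finset.mem_insert, List.mem_toFinset, List.toFinset_cons] at this ⊢
      tauto

lemma PE_reach (a : V) (L : List V) : ∀ x ∈ vs a L, (gr (PE a L)).Reachable a x := by
  induction L with
  | nil =>
    intro x hx
    simp only [vs, List.toFinset_nil, Finset.mem_insert, Finset.notMem_empty, or_false] at hx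
    subst hx
    exact SimpleGraph.Reachable.refl _
  | cons w L ih =>
    have hmono : ∀ x ∈ vs a L, (gr (PE a (w :: L))).Reachable a x := fun x hx =>
      reach_mono (by rw [PE]; exact Finset.subset_insert _ _) (ih x hx)
    intro x hx
    have hx' : x = w ∨ x ∈ vs a L := by
      simp only [vs, Finset.mem_insert, List.mem_toFinset, List.toFinset_cons] at hx ⊢
      tauto
    rcases hx' with rfl | hx'
    · have h1 : hd a L ∈ vs a L := by
        rcases hd_mem a L with h | h
        · rw [h]; simp [vs]
        · simp [vs, h]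
      have h2 : s(hd a L, x) ∈ PE a (x :: L) := by rw [PE]; exact Finset.mem_insert_self _ _
      exact (hmono _ h1).trans (reach_edge h2)
    · exact hmono x hx'

omit [Fintype V] in
lemma hd_mem_vs (a : V) (L : List V) : hd a L ∈ vs a L := by
  rcases hd_mem a L with h | h
  · rw [h]; simp [vs]
  · simp [vs, h]

lemma PE_reach_hd (a : V) (L : List V) : ∀ x ∈ vs a L, (gr (PE a L)).Reachable (hd a L) x :=
  fun x hx => (PE_reach a L _ (hd_mem_vs a L)).symm.trans (PE_reach a L x hx)

omit [Fintype V] in
lemma vs_card {a : V} {L : List V} (nd : (L ++ [a]).Nodup) : (vs a L).card = L.length + 1 := by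
  rw [List.nodup_append] at nd
  have ha : a ∉ L := fun h => nd.2.2 a h a (by simp) rfl
  rw [vs, Finset.card_insert_of_notMem (by simpa using ha), List.toFinset_card_of_nodup nd.1]

end graph

section kernel

variable {V : Type*} [Fintype V] [DecidableEq V] {Ω : Type*} [MeasurableSpace Ω]
variable {U : Sym2 Ω → ℝ}

/-- product of the values of `U` along a path -/
noncomputable def eP (U : Sym2 Ω → ℝ) (a : V) (p : List V) (b : V) (z : V → Ω) : ℝ :=
  ((pathEdges a p b).map (fun e => U (e.map z))).prod

omit [Fintype V] [DecidableEq V] [MeasurableSpace Ω] in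
lemma eP_nil (a b : V) (z : V → Ω) : eP U a [] b z = U s(z a, z b) := by
  simp [eP, pathEdges]

omit [Fintype V] [DecidableEq V] [MeasurableSpace Ω] in
lemma eP_cons (a v b : V) (p : List V) (z : V → Ω) :
    eP U a (v :: p) b z = U s(z a, z v) * eP U v p b z := by
  simp [eP, pathEdges]

omit [Fintype V] [DecidableEq V] [MeasurableSpace Ω] in
lemma eP_append (a m b : V) (p q : List V) (z : V → Ω) :
    eP U a (p ++ m :: q) b z = eP U a p m z * eP U m q b z := by
  simp [eP, pathEdges_append]

omit [MeasurableSpace Ω] in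
lemma wt_pathEdges {a b : V} {p : List V} (nd : (a :: p ++ [b]).Nodup) (z : V → Ω) :
    wt U (pathEdges a p b).toFinset z = eP U a p b z := by
  unfold wt eP
  rw [List.prod_toFinset _ (pathEdges_nodup nd)]

omit [Fintype V] [DecidableEq V] [MeasurableSpace Ω] in
lemma pU_append (a : V) (E L : List V) (z : V → Ω) :
    pU U a (E ++ L) z = pU U (hd a L) E z * pU U a L z := by
  induction E with
  | nil => simp [pU]
  | cons w E ih =>
    rw [List.cons_append, pU, pU, ih, hd_append]
    ring

omit [Fintype V] [DecidableEq V] [MeasurableSpace Ω] in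
lemma pU_close (a x : V) (C L : List V) (z : V → Ω) :
    pU U a (C ++ L) z * U s(z x, z (hd a (C ++ L))) = eP U x C (hd a L) z * pU U a L z := by
  induction C generalizing x with
  | nil => simp only [List.nil_append, eP_nil]; ring
  | cons w C ih =>
    have := ih (x := w)
    rw [List.cons_append, pU, eP_cons]
    show U s(z (hd a (C ++ L)), z w) * pU U a (C ++ L) z * U s(z x, z w) = _
    rw [mul_assoc (U s(z x, z w)), ← this, show (s(z (hd a (C ++ L)), z w) : Sym2 Ω) =
      s(z w, z (hd a (C ++ L))) from Sym2.eq_swap]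
    ring

omit [Fintype V] [DecidableEq V] [MeasurableSpace Ω] in
lemma pU_cons_eq (a w : V) (L : List V) (z : V → Ω) :
    pU U a (w :: L) z = eP U w L a z := by
  have := pU_close (U := U) a w L [] z
  rw [List.append_nil] at this
  rw [pU, show (s(z (hd a L), z w) : Sym2 Ω) = s(z w, z (hd a L)) from Sym2.eq_swap, mul_comm,
    this]
  simp [pU, hd]

omit [MeasurableSpace Ω] in
lemma wt_PE {a : V} {L : List V} (nd : (L ++ [a]).Nodup) (z : V → Ω) :
    wt U (PE a L) z = pU U a L z := by
  induction L with
  | nil => simp [wt, PE, pU]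
  | cons w L ih =>
    rw [List.cons_append, List.nodup_cons] at nd
    have hw : s(hd a L, w) ∉ PE a L := by
      intro h
      have := PE_vs a L _ h w (by simp)
      apply nd.1
      simp only [vs, Finset.mem_insert, List.mem_toFinset] at this
      simp only [List.mem_append, List.mem_singleton]
      tauto
    have h1 : wt U (PE a (w :: L)) z = U s(z (hd a L), z w) * wt U (PE a L) z := by
      unfold wt
      rw [PE, Finset.prod_insert hw, Sym2.map_mk]
    rw [h1, ih nd.2, pU]

variable (μ : Measure Ω) [IsProbabilityMeasure μ] {κ η : ℝ}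

/-- a closed path `c, Z, c` with at least `2 k` edges, hanging at `c` on a connected piece -/
theorem lolly (hU : Good U 1) (hκ0 : 0 ≤ κ) (hκ : ∀ s, ∫ t, |two U s t| ∂μ ≤ κ)
    {k : ℕ} (hk : 1 ≤ k) {c : V} {Z : List V} (hZ : 2 * k ≤ Z.length + 1) (ndZ : Z.Nodup)
    {X₀ : Finset V} (hc : c ∈ X₀) (hZX : ∀ v ∈ Z, v ∉ X₀)
    {F₀ : Finset (Sym2 V)} (hF₀ : ∀ e ∈ F₀, ∀ v ∈ e, v ∈ X₀)
    (hr : ∀ x ∈ X₀, (gr F₀).Reachable c x)
    {h : V → Ω → ℝ} (hh : ∀ v, BM (h v)) (hh1 : ∀ v s, |h v s| ≤ 1) :
    |∫ z, eP U c Z c z * wt U F₀ z * ∏ x ∈ X₀ ∪ Z.toFinset, h x (z x) ∂(piM V μ)| ≤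
      κ ^ (X₀.card + Z.length - 2 * k) * ck μ U k := by
  have hX0 : 1 ≤ X₀.card := Finset.card_pos.mpr ⟨c, hc⟩
  obtain ⟨p, r1, hZ1, hp⟩ : ∃ p r1, Z = p ++ r1 ∧ p.length = k - 1 :=
    ⟨Z.take (k - 1), Z.drop (k - 1), (List.take_append_drop _ _).symm, by
      rw [List.length_take]; omega⟩
  obtain ⟨m, r2, rfl⟩ : ∃ m r2, r1 = m :: r2 := by
    cases r1 with
    | nil =>
      rw [List.append_nil] at hZ1
      rw [hZ1] at hZ
      omega
    | cons m r2 => exact ⟨m, r2, rfl⟩
  have hlen1 : Z.length = (k - 1) + (r2.length + 1) := by rw [hZ1]; simp [hp]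
  obtain ⟨q, r3, hr2, hq⟩ : ∃ q r3, r2 = q ++ r3 ∧ q.length = k - 1 :=
    ⟨r2.take (k - 1), r2.drop (k - 1), (List.take_append_drop _ _).symm, by
      rw [List.length_take]; omega⟩
  subst hr2
  have hm : m ∉ X₀ := hZX m (by rw [hZ1]; simp)
  have hcm : c ≠ m := fun e => hm (e ▸ hc)
  have hprod : ∀ z : V → Ω, ∏ x ∈ X₀ ∪ Z.toFinset, h x (z x) =
      (∏ x ∈ X₀, h x (z x)) * (Z.map (fun v => h v (z v))).prod := by
    intro z
    rw [Finset.prod_union, List.prod_toFinset _ ndZ]
    rw [Finset.disjoint_left]
    intro x hx hx'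
    exact hZX x (List.mem_toFinset.mp hx') hx
  have hD : ∀ (p : List V) (a b : V) (z : V → Ω), pathProd U (fun v _ y => h v y) a p b z =
      eP U a p b z * (p.map (fun v => h v (z v))).prod := fun p a b z =>
    pathProd_eq (fun v _ y => h v y) p a b z
  cases r3 with
  | nil =>
    rw [List.append_nil] at hZ1 hlen1
    have nd' : (p ++ m :: q).Nodup := hZ1 ▸ ndZ
    have ndpq : (p ++ q).Nodup := by
      have := nd'
      rw [List.nodup_append] at this ⊢
      refine ⟨this.1, (List.nodup_cons.mp this.2.1).2, fun u hu v hv => ?_⟩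
      exact this.2.2 u hu v (List.mem_cons_of_mem _ hv)
    have hmp : ∀ v ∈ p, v ≠ m := by
      intro v hv
      rw [List.nodup_append] at nd'
      exact nd'.2.2 v hv m List.mem_cons_self
    have hmq : ∀ v ∈ q, v ≠ m := by
      intro v hv
      rw [List.nodup_append] at nd'
      have := (List.nodup_cons.mp nd'.2.1).1
      rintro rfl
      exact this hv
    have key := R2.H738.gl μ hU hκ0 hκ (k := k) (a := c) (m := m) (m' := m) (b := c)
      (p := p) (q := q) (by omega) (by omega) ndpq hcm hcm.symm (X := insert m X₀)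
      (Finset.mem_insert_of_mem hc) (Finset.mem_insert_self _ _) (Finset.mem_insert_self _ _)
      (Finset.mem_insert_of_mem hc)
      (by
        intro v hv hvX
        rcases Finset.mem_insert.mp hvX with h | h
        · exact hmp v hv h
        · exact hZX v (by rw [hZ1]; simp [hv]) h)
      (by
        intro v hv hvX
        rcases Finset.mem_insert.mp hvX with h | h
        · exact hmq v hv h
        · exact hZX v (by rw [hZ1]; simp [hv]) h)
      (F := F₀) (fun e he v hv => Finset.mem_insert_of_mem (hF₀ e he v hv))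
      (by
        intro x hx
        rcases Finset.mem_insert.mp hx with rfl | hx
        · exact ⟨x, by simp, SimpleGraph.Reachable.refl _⟩
        · exact ⟨c, by simp, hr x hx⟩)
      (by
        intro x hx
        rcases Finset.mem_insert.mp hx with rfl | hx
        · exact ⟨x, by simp, SimpleGraph.Reachable.refl _⟩
        · exact ⟨c, by simp, hr x hx⟩)
      hh hh1
    have hcard : (insert m X₀).card - 2 = X₀.card + Z.length - 2 * k := by
      rw [Finset.card_insert_of_notMem hm]
      omega
    rw [hcard] at key
    refine le_trans (le_of_eq ?_) key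
    congr 1
    refine integral_congr_ae (Filter.Eventually.of_forall fun z => ?_)
    simp only [hprod, hD]
    rw [Finset.prod_insert hm, hZ1, eP_append, List.map_append, List.prod_append, List.map_cons,
      List.prod_cons]
    ring
  | cons b r =>
    have hlen2 : Z.length = 2 * k + r.length := by
      rw [hlen1, List.length_append, List.length_cons, hq]; omega
    have nd' : (p ++ m :: (q ++ b :: r)).Nodup := hZ1 ▸ ndZ
    rw [List.nodup_append] at nd'
    obtain ⟨ndp, nd2, hpd⟩ := nd'
    rw [List.nodup_cons] at nd2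
    obtain ⟨hmq', nd3⟩ := nd2
    rw [List.nodup_append] at nd3
    obtain ⟨ndq, ndbr, hqd⟩ := nd3
    have ndpq : (p ++ q).Nodup := by
      rw [List.nodup_append]
      refine ⟨ndp, ndq, fun u hu v hv => hpd u hu v ?_⟩
      simp [hv]
    have hbr : ∀ v ∈ b :: r, v ∉ X₀ := fun v hv => hZX v (by
      rw [hZ1]
      simp only [List.mem_append, List.mem_cons] at hv ⊢
      tauto)
    have hbc : (b :: r ++ [c]).Nodup := by
      rw [List.nodup_append]
      refine ⟨ndbr, by simp, fun u hu v hv => ?_⟩
      simp only [List.mem_singleton] at hv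
      subst hv
      rintro rfl
      exact hbr u hu hc
    have hmbr : m ∉ b :: r := fun hx => hmq' (List.mem_append_right _ hx)
    have hmb : m ≠ b := fun e => hmbr (e ▸ List.mem_cons_self)
    set F : Finset (Sym2 V) := F₀ ∪ (pathEdges b r c).toFinset with hFdef
    set X : Finset V := X₀ ∪ (m :: b :: r).toFinset with hXdef
    have hdisF : Disjoint F₀ (pathEdges b r c).toFinset := by
      rw [Finset.disjoint_left]
      intro e he he'
      obtain ⟨v, hv, hve⟩ := pathEdges_mem_init (List.mem_toFinset.mp he')
      exact hbr v hv (hF₀ e he v hve)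
    have hdisX : Disjoint X₀ (m :: b :: r).toFinset := by
      rw [Finset.disjoint_left]
      intro v hv hv'
      rw [List.mem_toFinset, List.mem_cons] at hv'
      rcases hv' with rfl | hv'
      · exact hm hv
      · exact hbr v hv' hv
    have ndmbr : (m :: b :: r).Nodup := List.nodup_cons.mpr ⟨hmbr, ndbr⟩
    have hXm : ∀ v, v ∈ X ↔ v ∈ X₀ ∨ v = m ∨ v ∈ b :: r := by
      intro v
      rw [hXdef, Finset.mem_union, List.mem_toFinset, List.mem_cons]
    have hpath : ∀ u ∈ b :: r ++ [c], (gr F).Reachable c u := reach_path (fun e he => by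
      rw [hFdef, Finset.mem_union]
      exact Or.inr (List.mem_toFinset.mpr he))
    have hX0r : ∀ x ∈ X₀, (gr F).Reachable c x := fun x hx =>
      reach_mono Finset.subset_union_left (hr x hx)
    have hcb : (gr F).Reachable c b := hpath b (by simp)
    have key := R2.H738.gl μ hU hκ0 hκ (k := k) (a := c) (m := m) (m' := m) (b := b)
      (p := p) (q := q) (by omega) (by omega) ndpq hcm hmb (X := X)
      ((hXm c).mpr (Or.inl hc)) ((hXm m).mpr (Or.inr (Or.inl rfl)))
      ((hXm m).mpr (Or.inr (Or.inl rfl)))
      ((hXm b).mpr (Or.inr (Or.inr List.mem_cons_self)))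
      (by
        intro v hv hvX
        rcases (hXm v).mp hvX with h | h | h
        · exact hZX v (by rw [hZ1]; simp [hv]) h
        · exact hpd v hv m List.mem_cons_self h
        · exact hpd v hv v (List.mem_cons_of_mem _ (List.mem_append_right _ h)) rfl)
      (by
        intro v hv hvX
        rcases (hXm v).mp hvX with h | h | h
        · exact hZX v (by rw [hZ1]; simp [hv]) h
        · exact hmq' (List.mem_append_left _ (h ▸ hv))
        · exact hqd v hv v h rfl)
      (F := F)
      (by
        intro e he v hv
        rw [hXm]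
        rw [hFdef, Finset.mem_union] at he
        rcases he with he | he
        · exact Or.inl (hF₀ e he v hv)
        · have := mem_pathEdges_vertices (List.mem_toFinset.mp he) v hv
          rw [List.mem_append, List.mem_singleton] at this
          rcases this with h | rfl
          · exact Or.inr (Or.inr h)
          · exact Or.inl hc)
      (by
        intro x hx
        rcases (hXm x).mp hx with h | rfl | h
        · exact ⟨c, by simp, hX0r x h⟩
        · exact ⟨x, by simp, SimpleGraph.Reachable.refl _⟩
        · exact ⟨c, by simp, hpath x (List.mem_append_left _ h)⟩)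
      (by
        intro x hx
        rcases (hXm x).mp hx with h | rfl | h
        · exact ⟨b, by simp, hcb.symm.trans (hX0r x h)⟩
        · exact ⟨x, by simp, SimpleGraph.Reachable.refl _⟩
        · exact ⟨b, by simp, hcb.symm.trans (hpath x (List.mem_append_left _ h))⟩)
      hh hh1
    have hcard : X.card - 2 = X₀.card + Z.length - 2 * k := by
      rw [hXdef, Finset.card_union_of_disjoint hdisX, List.toFinset_card_of_nodup ndmbr]
      simp only [List.length_cons]
      omega
    rw [hcard] at key
    refine le_trans (le_of_eq ?_) key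
    congr 1
    refine integral_congr_ae (Filter.Eventually.of_forall fun z => ?_)
    simp only [hprod, hD]
    rw [hXdef, Finset.prod_union hdisX, List.prod_toFinset _ ndmbr, hFdef, wt_union hdisF,
      wt_pathEdges hbc, hZ1, eP_append, eP_append, List.map_append, List.prod_append,
      List.map_cons, List.prod_cons, List.map_append, List.prod_append]
    simp only [List.map_cons, List.prod_cons]
    ring

/-- case (i): the chord from the last vertex to `s` -/
theorem glp_one (hU : Ker μ U κ η) {a s : V} {L C L' : List V} (nd : (L ++ [a]).Nodup)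
    (hL : L = C ++ L') (hs : hd a L' = s) {k : ℕ} (hk : 1 ≤ k) (hC : 2 * k ≤ C.length + 1)
    {h : V → Ω → ℝ} (hh : ∀ v, BM (h v)) (h1 : ∀ v s, |h v s| ≤ 1) :
    |∫ z, pU U a L z * U s(z s, z (hd a L)) * ∏ x ∈ vs a L, h x (z x) ∂(piM V μ)| ≤
      κ ^ (L.length + 1 - 2 * k) * ck μ U k := by
  subst hL
  rw [List.append_assoc, List.nodup_append] at nd
  obtain ⟨ndC, ndL, hd'⟩ := nd
  have hmem : ∀ v, v ∈ vs a L' ↔ v ∈ L' ++ [a] := by
    intro v
    simp only [vs, Finset.mem_insert, List.mem_toFinset, List.mem_append, List.mem_singleton]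
    tauto
  have hZX : ∀ v ∈ C, v ∉ vs a L' := fun v hv hv' => hd' v hv v ((hmem v).mp hv') rfl
  have key := lolly μ hU.good hU.κ0 hU.l1 hk (c := s) (Z := C) hC ndC (X₀ := vs a L')
    (hs ▸ hd_mem_vs a L') hZX (F₀ := PE a L') (PE_vs a L') (hs ▸ PE_reach_hd a L') hh h1
  have hcard : (vs a L').card + C.length - 2 * k = (C ++ L').length + 1 - 2 * k := by
    rw [vs_card ndL, List.length_append]
    omega
  rw [hcard] at key
  refine le_trans (le_of_eq ?_) key
  congr 1
  refine integral_congr_ae (Filter.Eventually.of_forall fun z => ?_)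
  have e1 : vs a (C ++ L') = vs a L' ∪ C.toFinset := by
    ext v
    simp only [vs, Finset.mem_insert, Finset.mem_union, List.mem_toFinset, List.mem_append]
    tauto
  show pU U a (C ++ L') z * U s(z s, z (hd a (C ++ L'))) * ∏ x ∈ vs a (C ++ L'), h x (z x) =
    eP U s C s z * wt U (PE a L') z * ∏ x ∈ vs a L' ∪ C.toFinset, h x (z x)
  rw [pU_close, e1, wt_PE ndL, hs]

/-- case (ii): the chord from the first vertex to `c` -/
theorem glp_two (hU : Ker μ U κ η) {a c : V} {L E D : List V} (nd : (L ++ [a]).Nodup)
    (hL : L = E ++ c :: D) {k : ℕ} (hk : 1 ≤ k) (hC : 2 * k ≤ D.length + 2)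
    {h : V → Ω → ℝ} (hh : ∀ v, BM (h v)) (h1 : ∀ v s, |h v s| ≤ 1) :
    |∫ z, pU U a L z * U s(z a, z c) * ∏ x ∈ vs a L, h x (z x) ∂(piM V μ)| ≤
      κ ^ (L.length + 1 - 2 * k) * ck μ U k := by
  subst hL
  have nd0 : (E ++ (c :: (D ++ [a]))).Nodup := by
    simpa [List.append_assoc] using nd
  rw [List.nodup_append] at nd0
  obtain ⟨ndE, ndc, hd'⟩ := nd0
  rw [List.nodup_cons] at ndc
  obtain ⟨hcD, ndD⟩ := ndc
  have ndEc : (E ++ [c]).Nodup := by
    rw [List.nodup_append]
    refine ⟨ndE, by simp, fun u hu v hv => hd' u hu v ?_⟩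
    simp only [List.mem_singleton] at hv
    subst hv
    exact List.mem_cons_self
  have hZX : ∀ v ∈ D ++ [a], v ∉ vs c E := by
    intro v hv hv'
    simp only [vs, Finset.mem_insert, List.mem_toFinset] at hv'
    rcases hv' with rfl | hv'
    · exact hcD hv
    · exact hd' v hv' v (List.mem_cons_of_mem _ hv) rfl
  have key := lolly μ hU.good hU.κ0 hU.l1 hk (c := c) (Z := D ++ [a]) (by simp; omega) ndD
    (X₀ := vs c E) (by simp [vs]) hZX (F₀ := PE c E) (PE_vs c E) (PE_reach c E) hh h1
  have hcard : (vs c E).card + (D ++ [a]).length - 2 * k =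
      (E ++ c :: D).length + 1 - 2 * k := by
    rw [vs_card ndEc]
    simp only [List.length_append, List.length_cons, List.length_nil]
    omega
  rw [hcard] at key
  refine le_trans (le_of_eq ?_) key
  congr 1
  refine integral_congr_ae (Filter.Eventually.of_forall fun z => ?_)
  have e1 : vs a (E ++ c :: D) = vs c E ∪ (D ++ [a]).toFinset := by
    ext v
    simp only [vs, Finset.mem_insert, Finset.mem_union, List.mem_toFinset, List.mem_append,
      List.mem_cons, List.not_mem_nil, or_false]
    tauto
  show pU U a (E ++ c :: D) z * U s(z a, z c) * ∏ x ∈ vs a (E ++ c :: D), h x (z x) =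
    eP U c (D ++ [a]) c z * wt U (PE c E) z * ∏ x ∈ vs c E ∪ (D ++ [a]).toFinset, h x (z x)
  rw [pU_append, e1, wt_PE ndEc, pU_cons_eq, eP_append, eP_nil]
  simp only [hd]
  ring

end kernel

end H612

end Vale.Agent.P050.Opt
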