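import Vale.Agent.P050.O.H928.Step
import Vale.Agent.P050.O.H998.ITle

/-!
# P050, dense targets, optimal order: ratios of partition functions
-/

set_option linter.all false

open MeasureTheory Finset

namespace Vale.Agent.P050.Opt

open Vale.Agent.P050 Vale.Agent.P050.Dense

namespace H612

variable {V : Type*} [Fintype V] [DecidableEq V] {Ω : Type*} [MeasurableSpace Ω]
variable (H : SimpleGraph V) [DecidableRel H.Adj] (o : V → ℕ)
variable (μ : Measure Ω) [IsProbabilityMeasure μ] {U : Sym2 Ω → ℝ} {R : V → Ω → ℝ} {κ η : ℝ}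

lemma ZE_nonneg (hU : Ker μ U κ η) (hR : One μ R) (Λ : Finset V) : 0 ≤ ZE H μ U R Λ :=
  integral_nonneg fun z => H998.Env_nonneg H hU hR Λ z

/-- one term of the first step -/
lemma term_le {D : ℕ} (hD : ∀ v, H.degree v ≤ D) (hU : Ker μ U κ η) (hη : (1 + η) ^ D ≤ 2)
    (hR : One μ R) {Λ : Finset V} {v a : V} (hv : v ∉ Λ) (ha : a ∈ Λ) :
    |IT H μ U R (fun z => (1 + R v (z v)) * U s(z v, z a)) {v} (O1 H o v a) Λ| ≤
      3 * κ * ZE H μ U R Λ := by
  have hva : v ≠ a := fun h => hv (h ▸ ha)
  have hbE := H998.bm_Env H hU hR Λ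
  have hEi : Ind v (Env H U R Λ) := by
    intro x y
    refine H998.Env_congr H fun u hu => ?_
    rw [Function.update_of_ne]
    rintro rfl
    exact hv hu
  have hbU : BM (fun z : V → Ω => U s(z v, z a)) := by
    have := hU.good.bm_edge (V := V) s(v, a)
    simpa using this
  have hbR : BM (fun z : V → Ω => R v (z v)) := (hR.bm v).comp (measurable_pi_apply v)
  have hbG : BM (fun z : V → Ω => (1 + R v (z v)) * U s(z v, z a)) :=
    ((BM.const 1).add hbR).mul hbU
  have hbK := H998.bm_Kp hU {v} (O1 H o v a) Λ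
  have hK0 : ∀ z : V → Ω, 0 ≤ Kp U {v} (O1 H o v a) Λ z := by
    intro z
    unfold Kp
    exact Finset.prod_nonneg fun x _ => Finset.prod_nonneg fun w _ => hU.one_add_nonneg _
  have hK2 : ∀ z : V → Ω, Kp U {v} (O1 H o v a) Λ z ≤ 2 := by
    intro z
    unfold Kp
    rw [Finset.prod_singleton]
    have hcard : (O1 H o v a v ∩ Λ).card ≤ D := by
      refine le_trans (Finset.card_le_card Finset.inter_subset_left) ?_
      unfold O1
      rw [Function.update_self]
      refine le_trans (Finset.card_filter_le _ _) ?_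
      exact hD v
    calc ∏ w ∈ O1 H o v a v ∩ Λ, (1 + U s(z v, z w))
        ≤ ∏ _w ∈ O1 H o v a v ∩ Λ, (1 + η) :=
          Finset.prod_le_prod (fun _ _ => hU.one_add_nonneg _) fun _ _ => hU.one_add_le _
      _ = (1 + η) ^ (O1 H o v a v ∩ Λ).card := by simp
      _ ≤ (1 + η) ^ D := pow_le_pow_right₀ (by linarith [hU.η0]) hcard
      _ ≤ 2 := hη
  have hE0 := H998.Env_nonneg H hU hR Λ
  have hbI : BM (fun z : V → Ω => (1 + R v (z v)) * U s(z v, z a) *
      Kp U {v} (O1 H o v a) Λ z * Env H U R Λ z) := (hbG.mul hbK).mul hbE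
  have hb3 : BM (fun z : V → Ω => 3 * |U s(z v, z a)| * Env H U R Λ z) :=
    ((BM.const 3).mul hbU.abs).mul hbE
  unfold IT
  calc |∫ z, (1 + R v (z v)) * U s(z v, z a) * Kp U {v} (O1 H o v a) Λ z *
        Env H U R Λ z ∂(piM V μ)|
      ≤ ∫ z, |(1 + R v (z v)) * U s(z v, z a) * Kp U {v} (O1 H o v a) Λ z *
        Env H U R Λ z| ∂(piM V μ) := abs_integral_le_integral_abs
    _ ≤ ∫ z, 3 * |U s(z v, z a)| * Env H U R Λ z ∂(piM V μ) := by
        refine integral_mono (hbI.abs.integrable _) (hb3.integrable _) fun z => ?_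
        show |(1 + R v (z v)) * U s(z v, z a) * Kp U {v} (O1 H o v a) Λ z *
          Env H U R Λ z| ≤ 3 * |U s(z v, z a)| * Env H U R Λ z
        rw [abs_mul, abs_mul, abs_mul, abs_of_nonneg (hE0 z), abs_of_nonneg (hK0 z)]
        refine mul_le_mul_of_nonneg_right ?_ (hE0 z)
        have hR1 : |1 + R v (z v)| ≤ 3 / 2 := by
          have := abs_le.mp (hR.bd v (z v))
          rw [abs_le]
          constructor <;> linarith
        calc |1 + R v (z v)| * |U s(z v, z a)| * Kp U {v} (O1 H o v a) Λ z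
            ≤ 3 / 2 * |U s(z v, z a)| * 2 := by
              refine mul_le_mul (mul_le_mul_of_nonneg_right hR1 (abs_nonneg _)) (hK2 z)
                (hK0 z) (by positivity)
          _ = 3 * |U s(z v, z a)| := by ring
    _ = ∫ z, 3 * (∫ y, |two U (z a) y| ∂μ) * Env H U R Λ z ∂(piM V μ) := by
        rw [integral_update μ v hb3]
        refine integral_congr_ae (Filter.Eventually.of_forall fun z => ?_)
        show ∫ y, 3 * |U s(Function.update z v y v, Function.update z v y a)| *
          Env H U R Λ (Function.update z v y) ∂μ = 3 * (∫ y, |two U (z a) y| ∂μ) *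
          Env H U R Λ z
        rw [← integral_const_mul, ← integral_mul_const]
        congr 1
        ext y
        rw [hEi z y, Function.update_self, Function.update_of_ne hva.symm, two_symm]
        rfl
    _ ≤ ∫ z, 3 * κ * Env H U R Λ z ∂(piM V μ) := by
        have hbi : BM (fun s : Ω => ∫ y, |two U s y| ∂μ) :=
          BM.integral_right (f := fun q : Ω × Ω => |two U q.1 q.2|) (hU.good.bm_two.abs) μ
        refine integral_mono
          ((((BM.const 3).mul (hbi.comp (measurable_pi_apply a))).mul hbE).integrable _)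
          (((BM.const (3 * κ)).mul hbE).integrable _) fun z => ?_
        show 3 * (∫ y, |two U (z a) y| ∂μ) * Env H U R Λ z ≤ 3 * κ * Env H U R Λ z
        refine mul_le_mul_of_nonneg_right ?_ (hE0 z)
        have := hU.l1 (z a)
        linarith
    _ = 3 * κ * ZE H μ U R Λ := by
        rw [integral_const_mul]
        rfl

theorem ZE_ratio {D : ℕ} (hD : ∀ v, H.degree v ≤ D) (hU : Ker μ U κ η) (hη : (1 + η) ^ D ≤ 2)
    (hR : One μ R) (hκ : 24 * D * κ ≤ 1) {Λ : Finset V} {v : V} (hv : v ∉ Λ) :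
    |ZE H μ U R (insert v Λ) - ZE H μ U R Λ| ≤ 1 / 8 * ZE H μ U R Λ := by
  set o : V → ℕ := fun x => (Fintype.equivFin V x : ℕ) with ho
  have hoi : Function.Injective o := fun x y h => by
    have : (Fintype.equivFin V) x = (Fintype.equivFin V) y := Fin.ext h
    exact (Fintype.equivFin V).injective this
  have hZ := ZE_nonneg H μ hU hR Λ
  rw [start H o μ hoi hU hR hv]
  calc |∑ a ∈ Λ.filter (fun a => H.Adj v a),
        IT H μ U R (fun z => (1 + R v (z v)) * U s(z v, z a)) {v} (O1 H o v a) Λ|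
      ≤ ∑ a ∈ Λ.filter (fun a => H.Adj v a),
        |IT H μ U R (fun z => (1 + R v (z v)) * U s(z v, z a)) {v} (O1 H o v a) Λ| :=
        Finset.abs_sum_le_sum_abs _ _
    _ ≤ ∑ _a ∈ Λ.filter (fun a => H.Adj v a), 3 * κ * ZE H μ U R Λ :=
        Finset.sum_le_sum fun a ha =>
          term_le H o μ hD hU hη hR hv (Finset.mem_filter.mp ha).1
    _ = ((Λ.filter (fun a => H.Adj v a)).card : ℝ) * (3 * κ * ZE H μ U R Λ) := by
        rw [Finset.sum_const, nsmul_eq_mul]
    _ ≤ (D : ℝ) * (3 * κ * ZE H μ U R Λ) := by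
        refine mul_le_mul_of_nonneg_right ?_
          (mul_nonneg (mul_nonneg (by norm_num) hU.κ0) hZ)
        have : (Λ.filter (fun a => H.Adj v a)).card ≤ D := by
          refine le_trans (Finset.card_le_card ?_) (hD v)
          intro a ha
          rw [SimpleGraph.mem_neighborFinset]
          exact (Finset.mem_filter.mp ha).2
        exact_mod_cast this
    _ = 24 * D * κ * (1 / 8 * ZE H μ U R Λ) := by ring
    _ ≤ 1 * (1 / 8 * ZE H μ U R Λ) :=
        mul_le_mul_of_nonneg_right hκ (mul_nonneg (by norm_num) hZ)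
    _ = 1 / 8 * ZE H μ U R Λ := one_mul _

lemma ZE_empty' : ZE H μ U R ∅ = 1 := by
  have h : ∀ z, Env H U R ∅ z = 1 := by
    intro z
    unfold Env
    rw [Finset.prod_empty, one_mul]
    refine Finset.prod_eq_one fun e he => ?_
    have := (Finset.mem_filter.mp he).2
    induction e using Sym2.ind with
    | h x y => exact absurd (this x (by simp)) (by simp)
  unfold ZE
  simp [h]

theorem ZE_pos {D : ℕ} (hD : ∀ v, H.degree v ≤ D) (hU : Ker μ U κ η) (hη : (1 + η) ^ D ≤ 2)
    (hR : One μ R) (hκ : 24 * D * κ ≤ 1) (Λ : Finset V) : 0 < ZE H μ U R Λ := by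
  induction Λ using Finset.induction_on with
  | empty => rw [ZE_empty']; exact one_pos
  | insert v Λ hv ih =>
    have := abs_le.mp (ZE_ratio H μ hD hU hη hR hκ hv)
    linarith [this.1]

end H612

end Vale.Agent.P050.Opt
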