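import Vale.Agent.P050.O.H738.Pos

/-!
# P050, dense targets, optimal order: shapes by positions
-/

set_option linter.all false

open MeasureTheory Finset

namespace Vale.Agent.P050.Opt

open Vale.Agent.P050 Vale.Agent.P050.Dense

variable {V : Type*} [Fintype V] [DecidableEq V] {Ω : Type*} [MeasurableSpace Ω]
variable {U : Sym2 Ω → ℝ} {κ η : ℝ}

namespace H612

omit [Fintype V] [DecidableEq V] in
lemma rev_cons (a w : V) (L : List V) :
    (w :: L ++ [a]).reverse = (L ++ [a]).reverse ++ [w] := by
  simp

omit [Fintype V] [DecidableEq V] in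
lemma len_rev (a : V) (L : List V) : (L ++ [a]).reverse.length = L.length + 1 := by simp

omit [Fintype V] [DecidableEq V] in
lemma fp_cons_lt (a w : V) (L : List V) {i : ℕ} (hi : i ≤ L.length) :
    fp a (w :: L) i = fp a L i := by
  unfold fp
  rw [rev_cons, List.getElem?_append_left (by rw [len_rev]; omega)]

omit [Fintype V] [DecidableEq V] in
lemma fp_cons_last (a w : V) (L : List V) : fp a (w :: L) (L.length + 1) = w := by
  unfold fp
  rw [rev_cons, List.getElem?_append_right (by rw [len_rev]), len_rev]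
  simp

omit [Fintype V] [DecidableEq V] in
lemma fp_hd (a : V) (L : List V) : fp a L L.length = hd a L := by
  cases L with
  | nil => simp [fp, hd]
  | cons w L => exact fp_cons_last a w L

omit [Fintype V] [DecidableEq V] in
lemma fp_eq (a : V) (L : List V) {i : ℕ} (hi : i < (L ++ [a]).reverse.length) :
    fp a L i = (L ++ [a]).reverse[i] := by
  unfold fp
  rw [List.getElem?_eq_getElem hi]
  rfl

omit [Fintype V] in
lemma fp_idx (a : V) (L : List V) {x : V} (hx : x ∈ (L ++ [a]).reverse) :
    fp a L ((L ++ [a]).reverse.idxOf x) = x := by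
  rw [fp_eq a L (List.idxOf_lt_length_iff.mpr hx)]
  exact List.getElem_idxOf (List.idxOf_lt_length_iff.mpr hx)

omit [Fintype V] [DecidableEq V] in
lemma fp_mem (a : V) (L : List V) {i : ℕ} (hi : i ≤ L.length) :
    fp a L i ∈ (L ++ [a]).reverse := by
  rw [fp_eq a L (by rw [len_rev]; omega)]
  exact List.getElem_mem _

omit [Fintype V] [DecidableEq V] in
lemma fp_inj {a : V} {L : List V} (nd : (L ++ [a]).Nodup) {i j : ℕ} (hi : i ≤ L.length)
    (hj : j ≤ L.length) (h : fp a L i = fp a L j) : i = j := by
  have hi' : i < (L ++ [a]).reverse.length := by rw [len_rev]; omega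
  have hj' : j < (L ++ [a]).reverse.length := by rw [len_rev]; omega
  rw [fp_eq a L hi', fp_eq a L hj'] at h
  exact (List.Nodup.getElem_inj_iff (List.nodup_reverse.mpr nd)).mp h

omit [Fintype V] in
lemma idx_le {a : V} {L : List V} {x : V} (hx : x ∈ (L ++ [a]).reverse) :
    (L ++ [a]).reverse.idxOf x ≤ L.length := by
  have := List.idxOf_lt_length_iff.mpr hx
  rw [len_rev] at this
  omega

omit [Fintype V] in
lemma idx_inj {a : V} {L : List V} {x y : V} (hx : x ∈ (L ++ [a]).reverse)
    (hy : y ∈ (L ++ [a]).reverse)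
    (h : (L ++ [a]).reverse.idxOf x = (L ++ [a]).reverse.idxOf y) : x = y := by
  rw [← fp_idx a L hx, ← fp_idx a L hy, h]

omit [Fintype V] in
lemma mem_vs_rev {a : V} {L : List V} {x : V} : x ∈ vs a L ↔ x ∈ (L ++ [a]).reverse := by
  simp only [vs, Finset.mem_insert, List.mem_toFinset, List.mem_reverse, List.mem_append,
    List.mem_singleton]
  tauto

omit [Fintype V] in
lemma vs_eq_image (a : V) (L : List V) : vs a L = (range (L.length + 1)).image (fp a L) := by
  ext x
  rw [mem_vs_rev, Finset.mem_image]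
  constructor
  · intro hx
    exact ⟨_, Finset.mem_range.mpr (Nat.lt_succ_of_le (idx_le hx)), fp_idx a L hx⟩
  · rintro ⟨i, hi, rfl⟩
    exact fp_mem a L (Nat.lt_succ_iff.mp (Finset.mem_range.mp hi))

omit [Fintype V] [DecidableEq V] in
lemma cons_fp (a : V) (L : List V) {i : ℕ} (hi : i < L.length) :
    Cons a L (fp a L (i + 1)) (fp a L i) := by
  induction L with
  | nil => simp at hi
  | cons w L ih =>
    rw [List.length_cons] at hi
    rcases Nat.lt_succ_iff_lt_or_eq.mp hi with h | h
    · rw [fp_cons_lt a w L (by omega), fp_cons_lt a w L (by omega)]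
      exact Or.inr (ih h)
    · subst h
      rw [fp_cons_last, fp_cons_lt a w L le_rfl, fp_hd]
      exact Or.inl ⟨rfl, rfl⟩

omit [Fintype V] [DecidableEq V] [MeasurableSpace Ω] in
lemma pU_fp (a : V) (L : List V) (z : V → Ω) :
    pU U a L z = ∏ i ∈ range L.length, U s(z (fp a L i), z (fp a L (i + 1))) := by
  induction L with
  | nil => simp [pU]
  | cons w L ih =>
    rw [List.length_cons, Finset.prod_range_succ, pU, ih, fp_cons_last,
      fp_cons_lt a w L le_rfl, fp_hd, mul_comm]
    congr 1
    refine Finset.prod_congr rfl fun i hi => ?_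
    have := Finset.mem_range.mp hi
    rw [fp_cons_lt a w L (by omega), fp_cons_lt a w L (by omega)]

/-- product over the edges of a shape given by positions -/
lemma wt_PE_pos {f : ℕ → V} {M : ℕ} {K : Finset (ℕ × ℕ)} (hf : Pos f M K) (z : V → Ω) :
    wt U (PE f M K) z = (∏ i ∈ range M, U s(z (f i), z (f (i + 1)))) *
      ∏ c ∈ K, U s(z (f c.1), z (f c.2)) := by
  have hinj : ∀ i j i' j' : ℕ, i < j → j ≤ M → i' < j' → j' ≤ M →
      (s(f i, f j) : Sym2 V) = s(f i', f j') → i = i' ∧ j = j' := by
    intro i j i' j' h1 h2 h3 h4 h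
    rw [Sym2.eq_iff] at h
    rcases h with ⟨h5, h6⟩ | ⟨h5, h6⟩
    · exact ⟨hf.inj i (by omega) i' (by omega) h5, hf.inj j h2 j' h4 h6⟩
    · have e1 := hf.inj i (by omega) j' h4 h5
      have e2 := hf.inj j h2 i' (by omega) h6
      omega
  unfold wt PE
  rw [Finset.prod_union, Finset.prod_image, Finset.prod_image]
  · simp only [Sym2.map_mk]
  · intro c hc c' hc' h
    have h1 := hf.ch c hc
    have h2 := hf.ch c' hc'
    obtain ⟨e1, e2⟩ := hinj _ _ _ _ (by omega) h1.2 (by omega) h2.2 h
    exact Prod.ext e1 e2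
  · intro i hi i' hi' h
    have h1 := Finset.mem_range.mp hi
    have h2 := Finset.mem_range.mp hi'
    exact (hinj _ _ _ _ (by omega) (by omega) (by omega) (by omega) h).1
  · rw [Finset.disjoint_left]
    intro e he he'
    obtain ⟨i, hi, rfl⟩ := Finset.mem_image.mp he
    obtain ⟨c, hc, h⟩ := Finset.mem_image.mp he'
    have h1 := hf.ch c hc
    have h2 := Finset.mem_range.mp hi
    obtain ⟨e1, e2⟩ := hinj _ _ _ _ (by omega) h1.2 (by omega) (by omega) h
    omega

end H612

open H612

section shape

variable {H : SimpleGraph V} [DecidableRel H.Adj] {a : V} {L : List V} {B : Option (Option V)}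
  {S : Finset V} {b : Bool}

omit [Fintype V] [DecidableEq V] in
theorem fp_zero : fp a L 0 = a := by
  simp [fp]

theorem fp_last (hs : Shape H a L B S b) : fp a L L.length = hd a L := fp_hd a L

namespace H612

omit [Fintype V] in
lemma mem_fan {L : List V} {a y : V} (hy : y ∈ pv a L.tail) :
    y ∈ (L ++ [a]).reverse ∧ (L ++ [a]).reverse.idxOf y + 2 ≤ L.length := by
  cases L with
  | nil => simp [pv] at hy
  | cons w L =>
    cases L with
    | nil => simp [pv] at hy
    | cons w' L =>
      have hy' : y ∈ (L ++ [a]).reverse := mem_vs_rev.mp hy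
      rw [rev_cons, rev_cons]
      refine ⟨by simp at hy' ⊢; tauto, ?_⟩
      rw [List.append_assoc, List.idxOf_append_of_mem hy']
      have := idx_le hy'
      simp only [List.length_cons]
      omega

omit [Fintype V] in
lemma mem_chord {L : List V} {a c : V} (nd : (L ++ [a]).Nodup) (hc : c ∈ L.tail.dropLast) :
    c ∈ (L ++ [a]).reverse ∧ 2 ≤ (L ++ [a]).reverse.idxOf c ∧
      (L ++ [a]).reverse.idxOf c + 1 ≤ L.length := by
  have hct : c ∈ L.tail := List.mem_of_mem_dropLast hc
  have hcL : c ∈ L := List.mem_of_mem_tail hct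
  have hcQ : c ∈ (L ++ [a]).reverse := by simp [hcL]
  refine ⟨hcQ, ?_⟩
  have hle := idx_le hcQ
  have hfp := fp_idx a L hcQ
  set i := (L ++ [a]).reverse.idxOf c with hi
  have nd' := nd
  rw [List.nodup_append] at nd'
  obtain ⟨ndL, -, hda⟩ := nd'
  have h0 : i ≠ 0 := by
    intro h
    rw [h, fp_zero] at hfp
    exact hda c hcL a (by simp) hfp.symm
  have hM : i ≠ L.length := by
    intro h
    rw [h, fp_hd] at hfp
    cases L with
    | nil => simp at hcL
    | cons w L =>
      simp only [hd] at hfp
      subst hfp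
      exact (List.nodup_cons.mp ndL).1 hct
  have h1 : i ≠ 1 := by
    intro h
    rw [h] at hfp
    have hne : L ≠ [] := List.ne_nil_of_mem hcL
    have e : fp a L 1 = L.getLast hne := by
      have hlen : 0 < L.length := List.length_pos_of_mem hcL
      rw [fp_eq a L (by rw [len_rev]; omega)]
      simp only [List.reverse_append, List.reverse_cons, List.reverse_nil, List.nil_append,
        List.cons_append, List.getElem_cons_succ, List.getElem_reverse]
      rw [List.getLast_eq_getElem]
      congr 1
    rw [e] at hfp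
    have hsplit : L.dropLast ++ [L.getLast hne] = L := List.dropLast_append_getLast hne
    have hcd : c ∈ L.dropLast := by
      have : L.tail.dropLast = L.dropLast.tail := by
        cases L with
        | nil => rfl
        | cons w L =>
          cases L with
          | nil => rfl
          | cons w' L => rfl
      rw [this] at hc
      exact List.mem_of_mem_tail hc
    rw [← hsplit, List.nodup_append] at ndL
    exact ndL.2.2 c hcd (L.getLast hne) (by simp) hfp.symm
  omega

end H612

theorem fp_Bp (hs : Shape H a L B S b) {i : ℕ} (h : Bp a L B = some i) :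
    B = some (some (fp a L i)) ∧ 2 ≤ i ∧ i + 1 ≤ L.length := by
  rcases B with _ | _ | c
  · simp [Bp] at h
  · simp [Bp] at h
  · have hi : (L ++ [a]).reverse.idxOf c = i := by simpa [Bp] using h
    obtain ⟨h1, h2⟩ := mem_chord hs.nd (hs.aB c rfl).1
    rw [hi] at h2
    refine ⟨?_, h2⟩
    rw [← hi, fp_idx a L h1]

theorem fp_Tp (hs : Shape H a L B S b) {s : ℕ} (h : s ∈ Tp a L S) :
    fp a L s ∈ S ∧ s + 2 ≤ L.length := by
  obtain ⟨y, hy, rfl⟩ := Finset.mem_image.mp h
  obtain ⟨h1, h2⟩ := mem_fan (hs.sS hy)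
  refine ⟨?_, h2⟩
  rw [fp_idx a L h1]
  exact hy

theorem card_Tp (hs : Shape H a L B S b) : (Tp a L S).card = S.card := by
  unfold Tp
  apply Finset.card_image_of_injOn
  intro x hx y hy h
  exact idx_inj (mem_fan (hs.sS hx)).1 (mem_fan (hs.sS hy)).1 h

theorem shape_cons (hs : Shape H a L B S b) {i : ℕ} (hi : i < L.length) :
    Cons a L (fp a L (i + 1)) (fp a L i) := cons_fp a L hi

theorem shape_pos (hs : Shape H a L B S b) :
    Pos (fp a L) L.length (KK L.length (Bp a L B) (Tp a L S)) := by
  refine ⟨fun i hi j hj h => fp_inj hs.nd hi hj h, fun c hc => ?_⟩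
  unfold KK at hc
  rw [Finset.mem_union] at hc
  rcases hc with hc | hc
  · cases hB : Bp a L B with
    | none => rw [hB] at hc; simp at hc
    | some i =>
      rw [hB] at hc
      simp only [Finset.mem_singleton] at hc
      subst hc
      obtain ⟨-, h1, h2⟩ := fp_Bp hs hB
      exact ⟨by simpa using h1, by simp; omega⟩
  · obtain ⟨s, hs', rfl⟩ := Finset.mem_image.mp hc
    exact ⟨(fp_Tp hs hs').2, le_rfl⟩

theorem shape_int (hs : Shape H a L B S b) (h : V → Ω → ℝ) (z : V → Ω) :
    pU U a L z * bc U a B z * (∏ x ∈ S, U s(z x, z (hd a L))) * ∏ x ∈ vs a L, h x (z x) =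
      wt U (PE (fp a L) L.length (KK L.length (Bp a L B) (Tp a L S))) z *
        ∏ i ∈ range (L.length + 1), h (fp a L i) (z (fp a L i)) := by
  have hv : ∏ x ∈ vs a L, h x (z x) =
      ∏ i ∈ range (L.length + 1), h (fp a L i) (z (fp a L i)) := by
    rw [vs_eq_image, Finset.prod_image]
    intro i hi j hj hij
    exact fp_inj hs.nd (Nat.lt_succ_iff.mp (Finset.mem_range.mp hi))
      (Nat.lt_succ_iff.mp (Finset.mem_range.mp hj)) hij
  have hT : ∏ c ∈ (Tp a L S).image (fun s => (s, L.length)),
      U s(z (fp a L c.1), z (fp a L c.2)) = ∏ x ∈ S, U s(z x, z (hd a L)) := by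
    rw [Finset.prod_image (fun s _ s' _ h => (Prod.ext_iff.mp h).1)]
    unfold Tp
    rw [Finset.prod_image]
    · refine Finset.prod_congr rfl fun x hx => ?_
      rw [fp_idx a L (mem_fan (hs.sS hx)).1, fp_hd]
    · intro x hx y hy h
      exact idx_inj (mem_fan (hs.sS hx)).1 (mem_fan (hs.sS hy)).1 h
  have hK : ∏ c ∈ KK L.length (Bp a L B) (Tp a L S),
      U s(z (fp a L c.1), z (fp a L c.2)) =
      bc U a B z * ∏ x ∈ S, U s(z x, z (hd a L)) := by
    unfold KK
    rw [← hT]
    cases hB : Bp a L B with
    | none =>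
      have : bc U a B z = 1 := by
        rcases B with _ | _ | c
        · rfl
        · rfl
        · simp [Bp] at hB
      rw [this, one_mul, Finset.empty_union]
    | some i =>
      obtain ⟨h1, h2, h3⟩ := fp_Bp hs hB
      have : bc U a B z = U s(z (fp a L 0), z (fp a L i)) := by
        rw [h1, fp_zero]
        rfl
      rw [this, Finset.prod_union, Finset.prod_singleton]
      rw [Finset.disjoint_left]
      intro c hc hc'
      rw [Finset.mem_singleton] at hc
      subst hc
      obtain ⟨s, -, h4⟩ := Finset.mem_image.mp hc'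
      have := (Prod.ext_iff.mp h4).2
      simp only at this
      omega
  rw [hv, wt_PE_pos (shape_pos hs), hK, ← pU_fp]
  ring

end shape

end Vale.Agent.P050.Opt
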