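import Vale.Agent.P050.O.H612.SidAll
import Vale.Agent.P050.O.H111.EntGlue

set_option linter.all false

/-!
Graphs assembled from Sidorenko graphs are Sidorenko, from the entropy form of Sidorenko graphs
and the step for copies.
-/

open Finset MeasureTheory

namespace Vale.Agent.P050.Opt

open Vale.Agent.P050 Vale.Agent.P050.Dense

namespace H612

/-- graphs without edges -/
theorem sid_edgeless {V : Type} [Finite V] (H : SimpleGraph V) (hb : H.IsBipartite)
    (h : ∀ v, (H.neighborSet v).ncard ≤ 0) : IsSidorenko H := by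
  classical
  letI := Fintype.ofFinite V
  refine ⟨hb, ?_⟩
  intro X _ _ Γ
  letI := Fintype.ofFinite X
  have h1 : H.edgeFinset = ∅ := by
    rw [Finset.eq_empty_iff_forall_notMem]
    intro e he
    induction e using Sym2.ind with
    | h a b =>
      rw [SimpleGraph.mem_edgeFinset, SimpleGraph.mem_edgeSet] at he
      have h2 := (Set.ncard_eq_zero (Set.toFinite _)).1 (Nat.le_zero.1 (h a))
      have h3 : b ∈ H.neighborSet a := he
      rw [h2] at h3
      exact h3
  rw [← tden_adjK, ← pden_adjK, Nat.card_eq_fintype_card, ← SimpleGraph.edgeFinset_card, h1,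
    Finset.card_empty, pow_zero]
  unfold tden
  simp only [h1, Finset.prod_empty]
  have hn : (0:ℝ) < (Fintype.card X : ℝ) ^ Fintype.card V := by
    have : 0 < Fintype.card X := Fintype.card_pos
    positivity
  rw [Finset.sum_const, Finset.card_univ, nsmul_eq_mul, mul_one, Fintype.card_fun,
    Nat.cast_pow, div_self hn.ne']

/-- the entropy form for all assembled graphs at `D = 0` -/
theorem ent_asm0_of
    (hsid : ∀ (V : Type) [Fintype V] [DecidableEq V] (H : SimpleGraph V), IsSidorenko H →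
      ∀ (Ω : Type) [Fintype Ω] [DecidableEq Ω] (w : Ω → ℝ) (U : Sym2 Ω → ℝ), Wt w U →
        Ent H w U)
    (htree : ∀ (V₀ V : Type) [Fintype V₀] [DecidableEq V₀] [Fintype V] [DecidableEq V]
      (H : SimpleGraph V₀) (n : ℕ) (f : Fin (n + 1) → V₀ ↪ V),
      (∀ i, i ≠ 0 → ∃ j < i, ∃ S : Set V₀, (H.induce S).IsAcyclic ∧ (∀ u ∈ S, f i u = f j u) ∧
        ∀ u ∉ S, ∀ l < i, ∀ v, f l v ≠ f i u) →
      (∀ x, ∃ i u, f i u = x) → ∀ (Ω : Type) [Fintype Ω] [DecidableEq Ω] (w : Ω → ℝ)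
        (U : Sym2 Ω → ℝ), Wt w U → Ent H w U → Ent (⨆ i, H.map (f i)) w U)
    {V : Type} {H : SimpleGraph V} (h : Assembled 0 V H) {Ω : Type} [Fintype Ω]
    [DecidableEq Ω] {w : Ω → ℝ} {U : Sym2 Ω → ℝ} (hw : Wt w U) :
    ∀ [Fintype V] [DecidableEq V], Ent H w U :=
  ent_asm_of (D := 0)
    (fun V _ _ H hb hD => hsid V H (sid_edgeless H hb hD) Ω w U hw)
    (fun V _ _ H hH => hsid V H hH Ω w U hw)
    (fun V₁ V₂ V _ _ _ _ _ _ H₁ H₂ f₁ f₂ h hc h1 h2 => ent_glue H₁ H₂ f₁ f₂ h hc hw h1 h2)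
    (fun V₀ V _ _ _ _ H n f h1 h3 hE => htree V₀ V H n f h1 h3 Ω w U hw hE) h

/-- graphs assembled from Sidorenko graphs are Sidorenko -/
theorem sid_asm0_of
    (hsid : ∀ (V : Type) [Fintype V] [DecidableEq V] (H : SimpleGraph V), IsSidorenko H →
      ∀ (Ω : Type) [Fintype Ω] [DecidableEq Ω] (w : Ω → ℝ) (U : Sym2 Ω → ℝ), Wt w U →
        Ent H w U)
    (htree : ∀ (V₀ V : Type) [Fintype V₀] [DecidableEq V₀] [Fintype V] [DecidableEq V]
      (H : SimpleGraph V₀) (n : ℕ) (f : Fin (n + 1) → V₀ ↪ V),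
      (∀ i, i ≠ 0 → ∃ j < i, ∃ S : Set V₀, (H.induce S).IsAcyclic ∧ (∀ u ∈ S, f i u = f j u) ∧
        ∀ u ∉ S, ∀ l < i, ∀ v, f l v ≠ f i u) →
      (∀ x, ∃ i u, f i u = x) → ∀ (Ω : Type) [Fintype Ω] [DecidableEq Ω] (w : Ω → ℝ)
        (U : Sym2 Ω → ℝ), Wt w U → Ent H w U → Ent (⨆ i, H.map (f i)) w U)
    {V : Type} {H : SimpleGraph V} (h : Assembled 0 V H) : IsSidorenko H := by
  classical
  haveI := h.finite
  letI : Fintype V := Fintype.ofFinite V
  exact sid_of_ent h.bip fun X _ _ w U hw => ent_asm0_of hsid htree h hw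

end H612

end Vale.Agent.P050.Opt
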