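import Vale.Agent.P050.O.H322.Subdiv
import Mathlib.Data.Set.Card

set_option linter.all false

/-!
The 1-subdivision: degrees and number of edges.
-/

open Finset

namespace Vale.Agent.P050.Opt

open Vale.Agent.P050

namespace H612

/-- the neighbours of an old vertex -/
lemma adj_inl {V : Type} {F : SimpleGraph V} {v : V} {y : V ⊕ (F.edgeSet × Fin (2 - 1))}
    (h : (subdiv 2 F).Adj (Sum.inl v) y) :
    ∃ (w : V) (h' : F.Adj v w), y = Sum.inr (⟨s(v, w), h'⟩, ⟨0, by omega⟩) := by
  rw [subdiv, SimpleGraph.fromRel_adj] at h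
  have key : ∀ (e : F.edgeSet), v ∈ e.1 →
      ∃ (w : V) (h' : F.Adj v w), (Sum.inr (e, ⟨0, by omega⟩) : V ⊕ (F.edgeSet × Fin (2 - 1))) =
        Sum.inr (⟨s(v, w), h'⟩, ⟨0, by omega⟩) := by
    intro e hv
    obtain ⟨w, hw⟩ := Sym2.mem_iff_exists.mp hv
    have h1 : F.Adj v w := by
      have := e.2
      rw [hw, SimpleGraph.mem_edgeSet] at this
      exact this
    refine ⟨w, h1, ?_⟩
    congr 2
    exact Subtype.ext hw
  have hout : ∀ e : F.edgeSet, (Quot.out e.1).1 ∈ e.1 ∧ (Quot.out e.1).2 ∈ e.1 := by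
    intro e
    have h1 := out_eq F e
    constructor
    · have : (Quot.out e.1).1 ∈ s((Quot.out e.1).1, (Quot.out e.1).2) := Sym2.mem_mk_left _ _
      rw [h1] at this
      exact this
    · have : (Quot.out e.1).2 ∈ s((Quot.out e.1).1, (Quot.out e.1).2) := Sym2.mem_mk_right _ _
      rw [h1] at this
      exact this
  have hmid : ∀ e : F.edgeSet, node F 2 e 1 = Sum.inr (e, ⟨0, by omega⟩) :=
    fun e => node_mid F e (by omega) (by omega)
  rcases h.2 with ⟨e, i, hi, hx, hy⟩ | ⟨e, i, hi, hx, hy⟩
  · rcases Nat.lt_succ_iff_lt_or_eq.mp hi with hi | rfl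
    · obtain rfl : i = 0 := by omega
      rw [node_zero] at hx
      rw [zero_add, hmid] at hy
      have hv := Sum.inl.inj hx
      rw [hy]
      exact key e (hv ▸ (hout e).1)
    · rw [hmid] at hx
      exact absurd hx (by simp)
  · rcases Nat.lt_succ_iff_lt_or_eq.mp hi with hi | rfl
    · obtain rfl : i = 0 := by omega
      rw [zero_add, hmid] at hy
      exact absurd hy (by simp)
    · have h2 : node F 2 e (1 + 1) = Sum.inl (Quot.out e.1).2 := node_last F (by omega) e
      rw [h2] at hy
      rw [hmid] at hx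
      have hv := Sum.inl.inj hy
      rw [hx]
      exact key e (hv ▸ (hout e).2)

/-- the neighbours of a new vertex -/
lemma adj_inr {V : Type} {F : SimpleGraph V} {p : F.edgeSet × Fin (2 - 1)}
    {y : V ⊕ (F.edgeSet × Fin (2 - 1))} (h : (subdiv 2 F).Adj (Sum.inr p) y) :
    y = Sum.inl (Quot.out p.1.1).1 ∨ y = Sum.inl (Quot.out p.1.1).2 := by
  rw [subdiv, SimpleGraph.fromRel_adj] at h
  have hmid : ∀ e : F.edgeSet, node F 2 e 1 = Sum.inr (e, ⟨0, by omega⟩) :=
    fun e => node_mid F e (by omega) (by omega)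
  rcases h.2 with ⟨e, i, hi, hx, hy⟩ | ⟨e, i, hi, hx, hy⟩
  · rcases Nat.lt_succ_iff_lt_or_eq.mp hi with hi | rfl
    · obtain rfl : i = 0 := by omega
      rw [node_zero] at hx
      exact absurd hx (by simp)
    · have h2 : node F 2 e (1 + 1) = Sum.inl (Quot.out e.1).2 := node_last F (by omega) e
      rw [hmid] at hx
      rw [h2] at hy
      have he := congrArg Prod.fst (Sum.inr.inj hx)
      simp only at he
      rw [he]
      exact Or.inr hy
  · rcases Nat.lt_succ_iff_lt_or_eq.mp hi with hi | rfl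
    · obtain rfl : i = 0 := by omega
      rw [zero_add, hmid] at hy
      rw [node_zero] at hx
      have he := congrArg Prod.fst (Sum.inr.inj hy)
      simp only at he
      rw [he]
      exact Or.inl hx
    · have h2 : node F 2 e (1 + 1) = Sum.inl (Quot.out e.1).2 := node_last F (by omega) e
      rw [h2] at hy
      exact absurd hy (by simp)

end H612

theorem subdiv_two_deg {V : Type} [Finite V] {F : SimpleGraph V} {D : ℕ}
    (h : ∀ v, (F.neighborSet v).ncard ≤ D) (x) : ((subdiv 2 F).neighborSet x).ncard ≤ D + 2 := by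
  classical
  rcases x with v | p
  · have h1 : (subdiv 2 F).neighborSet (Sum.inl v) ⊆
        (fun w : V => if h' : F.Adj v w then
          (Sum.inr (⟨s(v, w), h'⟩, ⟨0, by omega⟩) : V ⊕ (F.edgeSet × Fin (2 - 1)))
          else Sum.inl v) '' F.neighborSet v := by
      intro y hy
      obtain ⟨w, h', hw⟩ := H612.adj_inl hy
      refine ⟨w, h', ?_⟩
      simp only [dif_pos h', hw]
    calc ((subdiv 2 F).neighborSet (Sum.inl v)).ncard
        ≤ ((fun w : V => if h' : F.Adj v w then
          (Sum.inr (⟨s(v, w), h'⟩, ⟨0, by omega⟩) : V ⊕ (F.edgeSet × Fin (2 - 1)))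
          else Sum.inl v) '' F.neighborSet v).ncard :=
          Set.ncard_le_ncard h1 (Set.Finite.image _ (Set.toFinite _))
      _ ≤ (F.neighborSet v).ncard := Set.ncard_image_le (Set.toFinite _)
      _ ≤ D := h v
      _ ≤ D + 2 := by omega
  · have h1 : (subdiv 2 F).neighborSet (Sum.inr p) ⊆
        {(Sum.inl (Quot.out p.1.1).1 : V ⊕ (F.edgeSet × Fin (2 - 1))),
          Sum.inl (Quot.out p.1.1).2} := by
      intro y hy
      rcases H612.adj_inr hy with h2 | h2
      · rw [h2]
        exact Set.mem_insert _ _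
      · rw [h2]
        exact Set.mem_insert_of_mem _ rfl
    calc ((subdiv 2 F).neighborSet (Sum.inr p)).ncard
        ≤ ({(Sum.inl (Quot.out p.1.1).1 : V ⊕ (F.edgeSet × Fin (2 - 1))),
          Sum.inl (Quot.out p.1.1).2} : Set _).ncard :=
          Set.ncard_le_ncard h1 (Set.toFinite _)
      _ ≤ 2 := by
          refine (Set.ncard_insert_le _ _).trans ?_
          rw [Set.ncard_singleton]
      _ ≤ D + 2 := by omega

theorem subdiv_two_card {V : Type} [Finite V] (F : SimpleGraph V) :
    Nat.card (subdiv 2 F).edgeSet = 2 * Nat.card F.edgeSet := by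
  classical
  letI : Fintype V := Fintype.ofFinite V
  letI : Fintype F.edgeSet := Fintype.ofFinite _
  letI : Fintype (subdiv 2 F).edgeSet := Fintype.ofFinite _
  have h := prod_subdiv F (ℓ := 2) (by omega) (fun _ => (2:ℝ))
  rw [Finset.prod_const] at h
  simp only [Finset.prod_const, Finset.card_range, Finset.card_univ] at h
  rw [← pow_mul] at h
  have h1 := pow_right_injective₀ (M₀ := ℝ) (a := 2) (by norm_num) (by norm_num) h
  rw [Nat.card_eq_fintype_card, Nat.card_eq_fintype_card, ← SimpleGraph.edgeFinset_card]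
  exact h1

end Vale.Agent.P050.Opt
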